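/-
Row 239 (S0475), package SPL (owner helper254): split density / Frobenius density.
DEFINITIONS.  Abstract number fields, Mathlib vocabulary only.  No dependence on R239/Defs.lean.
-/
import Mathlib

set_option autoImplicit false

namespace Claimed.Agent.R239.SPL

open IsDedekindDomain NumberField
open scoped Pointwise

/-- generic mass: `gmass w S = ∑_{a ∈ S} w a` -/
noncomputable def gmass {α : Type*} (w : α → ℝ) (S : Set α) : ℝ := ∑' a : α, S.indicator w a

/-- finite primes of a number field -/
abbrev Pl (K : Type*) [Field K] [NumberField K] := HeightOneSpectrum (𝓞 K)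

section base

variable {K : Type*} [Field K] [NumberField K]

/-- absolute norm of a prime -/
noncomputable def nrm (v : Pl K) : ℕ := Ideal.absNorm v.asIdeal

/-- the weight `N v ^ (-s)` -/
noncomputable def wt (s : ℝ) (v : Pl K) : ℝ := (nrm v : ℝ) ^ (-s)

/-- `mass S s = ∑_{v ∈ S} N v ^ (-s)` -/
noncomputable def mass (S : Set (Pl K)) (s : ℝ) : ℝ := gmass (wt s) S

/-- primes of absolute residue degree one -/
def deg1 (K : Type*) [Field K] [NumberField K] : Set (Pl K) := {v | (nrm v).Prime}

/-- the real Dedekind zeta function as a sum over all ideals (the zero ideal contributes `0`) -/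
noncomputable def zetaR (K : Type*) [Field K] [NumberField K] (s : ℝ) : ℝ :=
  ∑' I : Ideal (𝓞 K), (Ideal.absNorm I : ℝ) ^ (-s)

/-- nonzero ideals all of whose prime divisors lie in `T` -/
def suppIn (T : Finset (Pl K)) : Set (Ideal (𝓞 K)) :=
  {I | I ≠ ⊥ ∧ ∀ v : Pl K, v.asIdeal ∣ I → v ∈ T}

end base

/-- `mass` for sets of natural numbers (used for sets of rational primes) -/
noncomputable def massQ (S : Set ℕ) (s : ℝ) : ℝ := gmass (fun p : ℕ => (p : ℝ) ^ (-s)) S

/-- the comparison function `log (1 / (s - 1))` -/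
noncomputable def LL (s : ℝ) : ℝ := -Real.log (s - 1)

/-- `f s = δ log (1/(s-1)) + O(1)` on `(1, 2]` -/
def Asymp (f : ℝ → ℝ) (δ : ℝ) : Prop :=
  ∃ C : ℝ, ∀ s : ℝ, 1 < s → s ≤ 2 → |f s - δ * LL s| ≤ C

section rel

variable (K : Type*) [Field K] [NumberField K] (L : Type*) [Field L] [NumberField L] [Algebra K L]

/-- `v` splits completely in `L` : all decomposition groups are trivial
(same definition as `CFT.Split`) -/
def Split : Set (Pl K) :=
  {v | ∀ w : Pl L, w.under (𝓞 K) = v → MulAction.stabilizer Gal(L/K) w.asIdeal = ⊥}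

/-- `v` is unramified in `L` : all inertia groups are trivial (same definition as `CFT.Unram`) -/
def Unr : Set (Pl K) :=
  {v | ∀ w : Pl L, w.under (𝓞 K) = v → w.asIdeal.toAddSubgroup.inertia Gal(L/K) = ⊥}

/-- primes `v` of `K` all of whose decomposition groups in `Gal(L/K)` are equal to `H` -/
def DecEq (H : Subgroup Gal(L/K)) : Set (Pl K) :=
  {v | ∀ w : Pl L, w.under (𝓞 K) = v → MulAction.stabilizer Gal(L/K) w.asIdeal = H}

/-- primes `v` of `K` all of whose decomposition groups in `Gal(L/K)` are contained in `H` -/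
def DecLe (H : Subgroup Gal(L/K)) : Set (Pl K) :=
  {v | ∀ w : Pl L, w.under (𝓞 K) = v → MulAction.stabilizer Gal(L/K) w.asIdeal ≤ H}

end rel

section ratl

variable (F : Type*) [Field F] [NumberField F]

/-- rational primes which split completely in `F` (for `F / ℚ` Galois) -/
def SplitQ : Set ℕ :=
  {p | p.Prime ∧ ∀ w : Pl F, (p : 𝓞 F) ∈ w.asIdeal → MulAction.stabilizer Gal(F/ℚ) w.asIdeal = ⊥}

end ratl

end Claimed.Agent.R239.SPL
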