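/-
R239 / SPL : calculus of `Asymp` and of `gmass` (pure real analysis, no number theory).
-/
import Claimed.Agent.R239.SPL.Defs

set_option autoImplicit false

namespace Claimed.Agent.R239.SPL

variable {f g : ℝ → ℝ} {δ ε : ℝ}

theorem spl_LL_nonneg {s : ℝ} (h1 : 1 < s) (h2 : s ≤ 2) : 0 ≤ LL s := by
  unfold LL
  have : Real.log (s - 1) ≤ 0 := Real.log_nonpos (by linarith) (by linarith)
  linarith

/-- `LL s → ∞` as `s → 1+`: take `s = 1 + exp (-(|C|+1))`. -/
theorem spl_LL_unbounded (C : ℝ) : ∃ s : ℝ, 1 < s ∧ s ≤ 2 ∧ C < LL s := by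
  refine ⟨1 + Real.exp (-(|C| + 1)), ?_, ?_, ?_⟩
  · have := Real.exp_pos (-(|C| + 1)); linarith
  · have : Real.exp (-(|C| + 1)) ≤ 1 := by
      rw [Real.exp_le_one_iff]
      have := abs_nonneg C
      linarith
    linarith
  · unfold LL
    rw [add_sub_cancel_left, Real.log_exp]
    have := le_abs_self C
    linarith

theorem spl_asymp_add (hf : Asymp f δ) (hg : Asymp g ε) : Asymp (fun s => f s + g s) (δ + ε) := by
  obtain ⟨C, hC⟩ := hf
  obtain ⟨D, hD⟩ := hg
  refine ⟨C + D, fun s h1 h2 => ?_⟩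
  have e : f s + g s - (δ + ε) * LL s = (f s - δ * LL s) + (g s - ε * LL s) := by ring
  rw [e]
  exact (abs_add_le _ _).trans (add_le_add (hC s h1 h2) (hD s h1 h2))

theorem spl_asymp_const_mul (c : ℝ) (hf : Asymp f δ) : Asymp (fun s => c * f s) (c * δ) := by
  obtain ⟨C, hC⟩ := hf
  refine ⟨|c| * C, fun s h1 h2 => ?_⟩
  have e : c * f s - c * δ * LL s = c * (f s - δ * LL s) := by ring
  rw [e, abs_mul]
  exact mul_le_mul_of_nonneg_left (hC s h1 h2) (abs_nonneg c)

theorem spl_asymp_sub (hf : Asymp f δ) (hg : Asymp g ε) : Asymp (fun s => f s - g s) (δ - ε) := by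
  have := spl_asymp_add hf (spl_asymp_const_mul (-1) hg)
  have e : δ + -1 * ε = δ - ε := by ring
  rw [e] at this
  obtain ⟨C, hC⟩ := this
  refine ⟨C, fun s h1 h2 => ?_⟩
  have := hC s h1 h2
  simp only at this
  have e2 : f s + -1 * g s = f s - g s := by ring
  rwa [e2] at this

theorem spl_asymp_congr (h : ∀ s : ℝ, 1 < s → s ≤ 2 → f s = g s) (hf : Asymp f δ) : Asymp g δ := by
  obtain ⟨C, hC⟩ := hf
  exact ⟨C, fun s h1 h2 => by rw [← h s h1 h2]; exact hC s h1 h2⟩

theorem spl_asymp_of_bdd_sub (hf : Asymp f δ) (C : ℝ)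
    (h : ∀ s : ℝ, 1 < s → s ≤ 2 → |g s - f s| ≤ C) : Asymp g δ := by
  obtain ⟨D, hD⟩ := hf
  refine ⟨C + D, fun s h1 h2 => ?_⟩
  have e : g s - δ * LL s = (g s - f s) + (f s - δ * LL s) := by ring
  rw [e]
  exact (abs_add_le _ _).trans (add_le_add (h s h1 h2) (hD s h1 h2))

theorem spl_asymp_zero_of_bdd (C : ℝ) (h : ∀ s : ℝ, 1 < s → s ≤ 2 → |f s| ≤ C) : Asymp f 0 :=
  ⟨C, fun s h1 h2 => by simpa using h s h1 h2⟩

theorem spl_asymp_sum {ι : Type*} (t : Finset ι) (F : ι → ℝ → ℝ) (d : ι → ℝ)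
    (h : ∀ i ∈ t, Asymp (F i) (d i)) : Asymp (fun s => ∑ i ∈ t, F i s) (∑ i ∈ t, d i) := by
  classical
  induction t using Finset.induction_on with
  | empty => exact ⟨0, fun s _ _ => by simp⟩
  | insert a t ha ih =>
    have h1 := h a (Finset.mem_insert_self a t)
    have h2 := ih (fun i hi => h i (Finset.mem_insert_of_mem hi))
    have := spl_asymp_add h1 h2
    simp only [Finset.sum_insert ha]
    exact this

theorem spl_asymp_unbounded (hf : Asymp f δ) (hδ : 0 < δ) (C : ℝ) :
    ∃ s : ℝ, 1 < s ∧ s ≤ 2 ∧ C < f s := by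
  obtain ⟨D, hD⟩ := hf
  obtain ⟨s, h1, h2, h3⟩ := spl_LL_unbounded ((C + D) / δ)
  refine ⟨s, h1, h2, ?_⟩
  have := (abs_le.mp (hD s h1 h2)).1
  have h4 : C + D < δ * LL s := by
    rw [div_lt_iff₀ hδ] at h3
    linarith
  linarith

theorem spl_asymp_unique (hf : Asymp f δ) (hf' : Asymp f ε) : δ = ε := by
  by_contra hne
  have key : ∀ {a b : ℝ}, Asymp f a → Asymp f b → a < b → False := by
    intro a b ha hb hab
    have h0 := spl_asymp_sub hb ha
    obtain ⟨s, _, _, h3⟩ := spl_asymp_unbounded h0 (sub_pos.mpr hab) 0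
    simp at h3
  rcases lt_or_gt_of_ne hne with h | h
  · exact key hf hf' h
  · exact key hf' hf h

/-! ### generic masses -/

section gm

variable {α β : Type*} {w : α → ℝ} {S T : Set α}

theorem spl_gmass_nonneg (hw0 : ∀ a, 0 ≤ w a) (S : Set α) : 0 ≤ gmass w S :=
  tsum_nonneg fun a => Set.indicator_nonneg (fun a _ => hw0 a) a

theorem spl_gmass_congr {w' : α → ℝ} (h : ∀ a ∈ S, w a = w' a) : gmass w S = gmass w' S := by
  unfold gmass
  congr 1
  ext a
  by_cases ha : a ∈ S
  · simp [ha, h a ha]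
  · simp [ha]

theorem spl_gmass_mono (hw0 : ∀ a, 0 ≤ w a) (hw : Summable w) (h : S ⊆ T) :
    gmass w S ≤ gmass w T :=
  Summable.tsum_le_tsum (fun a => Set.indicator_le_indicator_of_subset h hw0 a)
    (hw.indicator S) (hw.indicator T)

theorem spl_gmass_union (hw : Summable w) (hd : Disjoint S T) :
    gmass w (S ∪ T) = gmass w S + gmass w T := by
  unfold gmass
  rw [← (hw.indicator S).tsum_add (hw.indicator T)]
  congr 1
  ext a
  rw [Set.indicator_union_of_disjoint hd]

theorem spl_gmass_diff (hw : Summable w) (h : T ⊆ S) :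
    gmass w (S \ T) = gmass w S - gmass w T := by
  have := spl_gmass_union (S := S \ T) (T := T) hw Set.disjoint_sdiff_left
  rw [Set.sdiff_union_of_subset h] at this
  linarith

theorem spl_gmass_empty : gmass w (∅ : Set α) = 0 := by
  simp [gmass]

theorem spl_gmass_biUnion {ι : Type*} (t : Finset ι) (A : ι → Set α) (hw : Summable w)
    (hd : (t : Set ι).PairwiseDisjoint A) :
    gmass w (⋃ i ∈ t, A i) = ∑ i ∈ t, gmass w (A i) := by
  classical
  induction t using Finset.induction_on with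
  | empty => simp [spl_gmass_empty]
  | insert a t ha ih =>
    rw [Finset.set_biUnion_insert, Finset.sum_insert ha, spl_gmass_union hw, ih]
    · exact hd.subset (by simp)
    · rw [Set.disjoint_iUnion₂_right]
      intro i hi
      exact hd (by simp) (by simp [hi]) (by rintro rfl; exact ha hi)

theorem spl_gmass_union_le (hw0 : ∀ a, 0 ≤ w a) (hw : Summable w) :
    gmass w (S ∪ T) ≤ gmass w S + gmass w T := by
  have h1 : S ∪ T = S ∪ (T \ S) := by simp
  rw [h1, spl_gmass_union hw Set.disjoint_sdiff_right]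
  have := spl_gmass_mono (S := T \ S) (T := T) hw0 hw Set.sdiff_subset
  linarith

theorem spl_gmass_biUnion_le {ι : Type*} (t : Finset ι) (A : ι → Set α) (hw0 : ∀ a, 0 ≤ w a)
    (hw : Summable w) : gmass w (⋃ i ∈ t, A i) ≤ ∑ i ∈ t, gmass w (A i) := by
  classical
  induction t using Finset.induction_on with
  | empty => simp [spl_gmass_empty]
  | insert a t ha ih =>
    rw [Finset.set_biUnion_insert, Finset.sum_insert ha]
    exact (spl_gmass_union_le hw0 hw).trans (by linarith)

theorem spl_gmass_finite_le (hS : S.Finite) (hw1 : ∀ a, w a ≤ 1) : gmass w S ≤ S.ncard := by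
  classical
  unfold gmass
  rw [tsum_eq_sum (s := hS.toFinset) (fun a ha => by
    have : a ∉ S := by simpa using ha
    simp [this])]
  rw [Set.ncard_eq_toFinset_card S hS]
  calc ∑ a ∈ hS.toFinset, S.indicator w a ≤ ∑ a ∈ hS.toFinset, (1 : ℝ) := by
        apply Finset.sum_le_sum
        intro a ha
        have : a ∈ S := by simpa using ha
        simpa [this] using hw1 a
    _ = _ := by simp

theorem spl_fibre_inner (π : α → β) (c : ℝ) (b : β) (hfin : {a | π a = b}.Finite) :
    Summable (fun _ : {a // π a = b} => c) ∧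
      ∑' _ : {a // π a = b}, c = ({a | π a = b}.ncard : ℝ) * c := by
  have : Finite {a // π a = b} := hfin
  refine ⟨Summable.of_finite, ?_⟩
  rw [tsum_const, nsmul_eq_mul]
  rfl

/-- summation along the fibres of `π` : all fibres over `B` have exactly `d` elements. -/
theorem spl_gmass_fibre (π : α → β) (u : β → ℝ) (hu0 : ∀ b, 0 ≤ u b) (hu : Summable u)
    (B : Set β) (d : ℕ) (hfin : ∀ b ∈ B, {a | π a = b}.Finite)
    (hcard : ∀ b ∈ B, {a | π a = b}.ncard = d) :
    gmass (fun a => u (π a)) (π ⁻¹' B) = d * gmass u B := by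
  classical
  unfold gmass
  let e := Equiv.sigmaFiberEquiv π
  have hG : ∀ x : (Σ b, {a // π a = b}),
      (π ⁻¹' B).indicator (fun a => u (π a)) (e x) = B.indicator u x.1 := by
    rintro ⟨b, a, rfl⟩
    by_cases h : π a ∈ B
    · simp [e, h]
    · simp [e, h]
  rw [← e.tsum_eq]
  simp_rw [hG]
  have inner : ∀ b, Summable (fun _ : {a // π a = b} => B.indicator u b) ∧
      ∑' _ : {a // π a = b}, B.indicator u b = (d : ℝ) * B.indicator u b := by
    intro b
    by_cases h : b ∈ B
    · have := spl_fibre_inner π (B.indicator u b) b (hfin b h)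
      rw [hcard b h] at this
      exact this
    · simp [h, summable_zero]
  have hsum : Summable (fun x : (Σ b, {a // π a = b}) => B.indicator u x.1) := by
    rw [summable_sigma_of_nonneg (fun x => Set.indicator_nonneg (fun b _ => hu0 b) _)]
    refine ⟨fun b => (inner b).1, ?_⟩
    simp_rw [fun b => (inner b).2]
    exact (hu.indicator B).mul_left _
  rw [hsum.tsum_sigma' (fun b => (inner b).1)]
  simp_rw [fun b => (inner b).2]
  rw [tsum_mul_left]

/-- all fibres have at most `d` elements: summability upstairs and the inequality. -/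
theorem spl_gmass_fibre_le (π : α → β) (u : β → ℝ) (hu0 : ∀ b, 0 ≤ u b) (hu : Summable u)
    (d : ℕ) (hfin : ∀ b, {a | π a = b}.Finite) (hcard : ∀ b, {a | π a = b}.ncard ≤ d) :
    Summable (fun a => u (π a)) ∧ ∑' a, u (π a) ≤ d * ∑' b, u b := by
  classical
  let e := Equiv.sigmaFiberEquiv π
  have hG : ∀ x : (Σ b, {a // π a = b}), u (π (e x)) = u x.1 := by
    rintro ⟨b, a, rfl⟩
    rfl
  have inner := fun b => spl_fibre_inner π (u b) b (hfin b)
  have hle : ∀ b, ({a | π a = b}.ncard : ℝ) * u b ≤ (d : ℝ) * u b := fun b =>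
    mul_le_mul_of_nonneg_right (by exact_mod_cast hcard b) (hu0 b)
  have hs2 : Summable (fun b => ({a | π a = b}.ncard : ℝ) * u b) :=
    Summable.of_nonneg_of_le (fun b => mul_nonneg (Nat.cast_nonneg _) (hu0 b)) hle (hu.mul_left _)
  have hsum : Summable (fun x : (Σ b, {a // π a = b}) => u x.1) := by
    rw [summable_sigma_of_nonneg (fun x => hu0 _)]
    refine ⟨fun b => (inner b).1, ?_⟩
    simp_rw [fun b => (inner b).2]
    exact hs2
  have hsum' : Summable (fun a => u (π a)) := by
    rw [← e.summable_iff]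
    refine hsum.congr (fun x => ?_)
    simp [Function.comp, hG]
  refine ⟨hsum', ?_⟩
  rw [← e.tsum_eq]
  simp_rw [hG]
  rw [hsum.tsum_sigma' (fun b => (inner b).1)]
  simp_rw [fun b => (inner b).2]
  rw [← tsum_mul_left]
  exact hs2.tsum_le_tsum hle (hu.mul_left _)

end gm

end Claimed.Agent.R239.SPL
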