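/-
R239 / SPL : the finite Euler product  ∑_{I supported on T} N(I)^(-s) = ∏_{v ∈ T} (1 - N v^(-s))⁻¹.
-/
import Claimed.Agent.R239.SPL.Asymp

set_option autoImplicit false

namespace Claimed.Agent.R239.SPL

open IsDedekindDomain NumberField

variable {K : Type*} [Field K] [NumberField K]

theorem spl_two_le_nrm (v : Pl K) : 2 ≤ nrm v := by
  unfold nrm
  have h0 : Ideal.absNorm v.asIdeal ≠ 0 := by
    rw [Ne, Ideal.absNorm_eq_zero_iff]
    exact v.ne_bot
  have h1 : Ideal.absNorm v.asIdeal ≠ 1 := by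
    rw [Ne, Ideal.absNorm_eq_one_iff]
    exact v.isPrime.ne_top
  omega

theorem spl_wt_pos (s : ℝ) (v : Pl K) : 0 < wt s v := by
  unfold wt
  have := spl_two_le_nrm v
  exact Real.rpow_pos_of_pos (by exact_mod_cast (by omega : 0 < nrm v)) _

theorem spl_wt_lt_one {s : ℝ} (hs : 0 < s) (v : Pl K) : wt s v < 1 := by
  unfold wt
  have := spl_two_le_nrm v
  exact Real.rpow_lt_one_of_one_lt_of_neg (by exact_mod_cast (by omega : 1 < nrm v)) (by linarith)

theorem spl_wt_anti {s t : ℝ} (hst : s ≤ t) (v : Pl K) : wt t v ≤ wt s v := by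
  unfold wt
  have := spl_two_le_nrm v
  exact Real.rpow_le_rpow_of_exponent_le (by exact_mod_cast (by omega : 1 ≤ nrm v)) (by linarith)

theorem spl_wt_le_half {s : ℝ} (hs : 1 ≤ s) (v : Pl K) : wt s v ≤ 1 / 2 := by
  refine (spl_wt_anti hs v).trans ?_
  unfold wt
  have h2 : (2 : ℝ) ≤ nrm v := by exact_mod_cast spl_two_le_nrm v
  rw [Real.rpow_neg_one, one_div]
  exact inv_anti₀ (by norm_num) h2

theorem spl_suppIn_empty : suppIn (∅ : Finset (Pl K)) = {⊤} := by
  ext I
  simp only [suppIn, Set.mem_ofPred_eq, Finset.notMem_empty, imp_false, Set.mem_singleton_iff]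
  constructor
  · rintro ⟨h0, h⟩
    by_contra hI
    obtain ⟨M, hM, hIM⟩ := Ideal.exists_le_maximal I hI
    have hMb : M ≠ ⊥ := fun hb => h0 (by rw [hb] at hIM; exact le_bot_iff.mp hIM)
    exact h ⟨M, hM.isPrime, hMb⟩ (Ideal.dvd_iff_le.mpr hIM)
  · rintro rfl
    refine ⟨top_ne_bot, fun v hv => ?_⟩
    have := Ideal.dvd_iff_le.mp hv
    exact v.isPrime.ne_top (top_le_iff.mp this)

theorem spl_absNorm_rpow_pos {I : Ideal (𝓞 K)} (hI : I ≠ ⊥) (s : ℝ) :
    0 < (Ideal.absNorm I : ℝ) ^ (-s) := by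
  have h0 : Ideal.absNorm I ≠ 0 := by
    rw [Ne, Ideal.absNorm_eq_zero_iff]
    exact hI
  exact Real.rpow_pos_of_pos (by exact_mod_cast Nat.pos_of_ne_zero h0) _

theorem spl_absNorm_pow_mul (v : Pl K) (k : ℕ) (J : Ideal (𝓞 K)) (s : ℝ) :
    (Ideal.absNorm (v.asIdeal ^ k * J) : ℝ) ^ (-s) =
      wt s v ^ k * (Ideal.absNorm J : ℝ) ^ (-s) := by
  unfold wt nrm
  rw [map_mul, map_pow, Nat.cast_mul, Nat.cast_pow,
    Real.mul_rpow (by positivity) (by positivity), ← Real.rpow_natCast, ← Real.rpow_natCast,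
    ← Real.rpow_mul (by positivity), ← Real.rpow_mul (by positivity), mul_comm (k : ℝ)]

theorem spl_pow_mul_inj (v : Pl K) {k k' : ℕ} {J J' : Ideal (𝓞 K)} (hJ : ¬ v.asIdeal ∣ J)
    (hJ' : ¬ v.asIdeal ∣ J') (h : v.asIdeal ^ k * J = v.asIdeal ^ k' * J') : k = k' ∧ J = J' := by
  have key : ∀ {a b : ℕ} {A B : Ideal (𝓞 K)}, ¬ v.asIdeal ∣ A → a ≤ b →
      v.asIdeal ^ a * A = v.asIdeal ^ b * B → a = b := by
    intro a b A B hA hab hh
    obtain ⟨c, rfl⟩ := Nat.exists_eq_add_of_le hab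
    rw [pow_add, mul_assoc] at hh
    have h2 := mul_left_cancel₀ (pow_ne_zero a v.ne_bot) hh
    rcases Nat.eq_zero_or_pos c with rfl | hc
    · rfl
    · exfalso
      apply hA
      rw [h2]
      exact Dvd.dvd.mul_right (dvd_pow_self _ hc.ne') _
  have hk : k = k' := by
    rcases le_total k k' with hle | hle
    · exact key hJ hle h
    · exact (key hJ' hle h.symm).symm
  subst hk
  exact ⟨rfl, mul_left_cancel₀ (pow_ne_zero k v.ne_bot) h⟩

/-- Induction on `T`.  Step `T → insert v T` (`v ∉ T`): `(k, J) ↦ v^k * J` is a bijection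
`ℕ × suppIn T ≃ suppIn (insert v T)` (unique factorisation of ideals: `k` = multiplicity of `v`),
`N (v^k J) = N v^k N J`, and the product of the geometric series with the series for `T`. -/
theorem spl_euler_fin (T : Finset (Pl K)) {s : ℝ} (hs : 0 < s) :
    HasSum (fun I : Ideal (𝓞 K) => (suppIn T).indicator
      (fun I : Ideal (𝓞 K) => (Ideal.absNorm I : ℝ) ^ (-s)) I) (∏ v ∈ T, (1 - wt s v)⁻¹) := by
  classical
  induction T using Finset.induction_on with
  | empty =>
    rw [spl_suppIn_empty, Finset.prod_empty]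
    have := hasSum_single (f := fun I : Ideal (𝓞 K) => ({⊤} : Set (Ideal (𝓞 K))).indicator
      (fun I : Ideal (𝓞 K) => (Ideal.absNorm I : ℝ) ^ (-s)) I) ⊤ (fun b hb => by simp [hb])
    simpa using this
  | insert v T hv ih =>
    rw [Finset.prod_insert hv]
    have hgeo := hasSum_geometric_of_lt_one (spl_wt_pos s v).le (spl_wt_lt_one hs v)
    have hnn : ∀ J : Ideal (𝓞 K), 0 ≤ (suppIn T).indicator
        (fun I : Ideal (𝓞 K) => (Ideal.absNorm I : ℝ) ^ (-s)) J := fun J =>
      Set.indicator_nonneg (fun I _ => Real.rpow_nonneg (Nat.cast_nonneg _) _) J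
    have hprod := hgeo.mul ih (Summable.mul_of_nonneg hgeo.summable ih.summable
      (fun k => pow_nonneg (spl_wt_pos s v).le k) hnn)
    have hsupp : ∀ x : ℕ × Ideal (𝓞 K), x ∈ Function.support (fun x : ℕ × Ideal (𝓞 K) =>
        wt s v ^ x.1 * (suppIn T).indicator
          (fun I : Ideal (𝓞 K) => (Ideal.absNorm I : ℝ) ^ (-s)) x.2) → x.2 ∈ suppIn T := by
      intro x hx
      by_contra hmem
      apply hx
      simp [hmem]
    refine (hasSum_iff_hasSum_of_ne_zero_bij
      (fun x => v.asIdeal ^ (x : ℕ × Ideal (𝓞 K)).1 * (x : ℕ × Ideal (𝓞 K)).2) ?_ ?_ ?_).mpr hprod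
    · rintro ⟨⟨k, J⟩, hx⟩ ⟨⟨k', J'⟩, hx'⟩ h
      have hJ := hsupp _ hx
      have hJ' := hsupp _ hx'
      have := spl_pow_mul_inj v (fun hd => hv (hJ.2 v hd)) (fun hd => hv (hJ'.2 v hd)) h
      simp only [Subtype.mk.injEq, Prod.mk.injEq]
      exact this
    · intro I hI
      have hIm : I ∈ suppIn (insert v T) := by
        by_contra hmem
        apply hI
        simp [hmem]
      have hfin : FiniteMultiplicity v.asIdeal I :=
        FiniteMultiplicity.of_not_isUnit (fun hu => v.isPrime.ne_top (Ideal.isUnit_iff.mp hu)) hIm.1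
      obtain ⟨J, hJ, hnd⟩ := hfin.exists_eq_pow_mul_and_not_dvd
      have hJm : J ∈ suppIn T := by
        refine ⟨?_, fun u hu => ?_⟩
        · rintro rfl
          apply hIm.1
          rw [hJ]
          simp
        · have h1 : u ∈ insert v T := hIm.2 u (by rw [hJ]; exact Dvd.dvd.mul_left hu _)
          rcases Finset.mem_insert.mp h1 with rfl | h2
          · exact absurd hu hnd
          · exact h2
      refine ⟨⟨(multiplicity v.asIdeal I, J), ?_⟩, hJ.symm⟩
      simp only [Function.mem_support, Set.indicator_of_mem hJm]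
      exact (mul_pos (pow_pos (spl_wt_pos s v) _) (spl_absNorm_rpow_pos hJm.1 s)).ne'
    · rintro ⟨⟨k, J⟩, hx⟩
      have hJ := hsupp _ hx
      have hmem : v.asIdeal ^ k * J ∈ suppIn (insert v T) := by
        refine ⟨mul_ne_zero (pow_ne_zero k v.ne_bot) hJ.1, fun u hu => ?_⟩
        rcases (Ideal.prime_of_isPrime u.ne_bot u.isPrime).dvd_or_dvd hu with h1 | h1
        · have h2 := (Ideal.prime_of_isPrime u.ne_bot u.isPrime).dvd_of_dvd_pow h1
          have h3 : v.asIdeal ≤ u.asIdeal := Ideal.dvd_iff_le.mp h2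
          have h4 : v.asIdeal = u.asIdeal :=
            (v.isPrime.isMaximal v.ne_bot).eq_of_le u.isPrime.ne_top h3
          rw [← HeightOneSpectrum.ext h4]
          exact Finset.mem_insert_self _ _
        · exact Finset.mem_insert_of_mem (hJ.2 u h1)
      simp only [Set.indicator_of_mem hmem, Set.indicator_of_mem hJ]
      exact spl_absNorm_pow_mul v k J s

/-- every finite set of nonzero ideals is supported on a finite set of primes. -/
theorem spl_exists_suppIn (A : Finset (Ideal (𝓞 K))) (hA : ∀ I ∈ A, I ≠ ⊥) :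
    ∃ T : Finset (Pl K), ∀ I ∈ A, I ∈ suppIn T := by
  classical
  have hfin : (⋃ I ∈ A, {v : Pl K | v.asIdeal ∣ I}).Finite :=
    Set.Finite.biUnion A.finite_toSet (fun I hI => Ideal.finite_factors (hA I hI))
  refine ⟨hfin.toFinset, fun I hI => ⟨hA I hI, fun v hv => ?_⟩⟩
  rw [Set.Finite.mem_toFinset]
  exact Set.mem_biUnion hI hv

end Claimed.Agent.R239.SPL
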