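/-
R239 / SPL : the real Dedekind zeta function `zetaR K s = ∑_I N(I)^(-s)` and its pole at `s = 1`
(from Mathlib's `NumberField.tendsto_sub_one_mul_dedekindZeta_nhdsGT`).
-/
import Claimed.Agent.R239.SPL.Asymp

set_option autoImplicit false

namespace Claimed.Agent.R239.SPL

open IsDedekindDomain NumberField Filter Topology

section fib
variable {α β : Type*}

/-- summation along finite fibres -/
theorem spl_tsum_fibre (π : α → β) (u : β → ℝ) (hu0 : ∀ b, 0 ≤ u b)
    (hfin : ∀ b, {a | π a = b}.Finite)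
    (hs2 : Summable (fun b => ({a | π a = b}.ncard : ℝ) * u b)) :
    Summable (fun a => u (π a)) ∧ ∑' a, u (π a) = ∑' b, ({a | π a = b}.ncard : ℝ) * u b := by
  classical
  let e := Equiv.sigmaFiberEquiv π
  have hG : ∀ x : (Σ b, {a // π a = b}), u (π (e x)) = u x.1 := by
    rintro ⟨b, a, rfl⟩
    rfl
  have inner := fun b => spl_fibre_inner π (u b) b (hfin b)
  have hsum : Summable (fun x : (Σ b, {a // π a = b}) => u x.1) := by
    rw [summable_sigma_of_nonneg (fun x => hu0 _)]
    refine ⟨fun b => (inner b).1, ?_⟩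
    simp_rw [fun b => (inner b).2]
    exact hs2
  have hsum' : Summable (fun a => u (π a)) := by
    rw [← e.summable_iff]
    refine hsum.congr (fun x => ?_)
    simp [Function.comp, hG]
  refine ⟨hsum', ?_⟩
  rw [← e.tsum_eq]
  simp_rw [hG]
  rw [hsum.tsum_sigma' (fun b => (inner b).1)]
  simp_rw [fun b => (inner b).2]

end fib

variable (K : Type*) [Field K] [NumberField K]

/-- number of ideals of norm `n` -/
noncomputable def idCount (n : ℕ) : ℝ := ({I : Ideal (𝓞 K) | Ideal.absNorm I = n}.ncard : ℝ)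

theorem spl_idCount_eq (n : ℕ) :
    idCount K n = (Nat.card {I : Ideal (𝓞 K) // Ideal.absNorm I = n} : ℝ) := rfl

theorem spl_idCount_tendsto :
    Tendsto (fun n : ℕ => (∑ k ∈ Finset.Icc 1 n, idCount K k) / (n : ℝ)) atTop
      (𝓝 (dedekindZeta_residue K)) := by
  simp_rw [spl_idCount_eq]
  refine ((Ideal.tendsto_norm_le_div_atTop₀ K).comp tendsto_natCast_atTop_atTop).congr fun n ↦ ?_
  simp only [Function.comp_apply, Nat.cast_le, ← Nat.cast_sum]
  congr
  rw [← add_left_inj 1, ← Ideal.card_norm_le_eq_card_norm_le_add_one,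
    show Finset.Icc 1 n = Finset.Ioc 0 n from Finset.Icc_succ_left_eq_Ioc _ _,
    show 1 = Nat.card {I : Ideal (𝓞 K) // Ideal.absNorm I = 0} by simp [Ideal.absNorm_eq_zero_iff],
    Finset.sum_Ioc_add_eq_sum_Icc (n.zero_le),
    ← Finset.card_preimage_eq_sum_card_image_eq (fun k _ ↦ Ideal.finite_setOfPred_absNorm_eq k)]
  simp [Set.coe_eq_subtype]

theorem spl_lseriesSummable {s : ℝ} (hs : 1 < s) :
    LSeriesSummable (fun n => ((idCount K n : ℝ) : ℂ)) (s : ℂ) := by
  refine LSeriesSummable_of_sum_norm_bigO_and_nonneg (r := 1) ?_ (fun n => Nat.cast_nonneg _)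
    zero_le_one (by simpa using hs)
  exact Asymptotics.isBigO_atTop_natCast_rpow_of_tendsto_div_rpow
    (a := dedekindZeta_residue K) (by simpa using spl_idCount_tendsto K)

theorem spl_term_eq {s : ℝ} (hs : 1 < s) (n : ℕ) :
    LSeries.term (fun n => ((idCount K n : ℝ) : ℂ)) (s : ℂ) n =
      ((idCount K n * (n : ℝ) ^ (-s) : ℝ) : ℂ) := by
  rw [LSeries.term_def]
  split_ifs with h
  · subst h
    rw [Nat.cast_zero, Real.zero_rpow (by linarith)]
    simp
  · rw [Real.rpow_neg (Nat.cast_nonneg n), Complex.ofReal_mul, Complex.ofReal_inv,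
      Complex.ofReal_cpow (Nat.cast_nonneg n), div_eq_mul_inv]
    simp

theorem spl_count_summable {s : ℝ} (hs : 1 < s) :
    Summable (fun n : ℕ => idCount K n * (n : ℝ) ^ (-s)) := by
  have h := spl_lseriesSummable K hs
  unfold LSeriesSummable at h
  have h2 : Summable (fun n : ℕ => ((idCount K n * (n : ℝ) ^ (-s) : ℝ) : ℂ)) :=
    h.congr (fun n => spl_term_eq K hs n)
  exact Complex.summable_ofReal.mp h2

theorem spl_zetaR_fibre {s : ℝ} (hs : 1 < s) :
    Summable (fun I : Ideal (𝓞 K) => (Ideal.absNorm I : ℝ) ^ (-s)) ∧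
      zetaR K s = ∑' n : ℕ, idCount K n * (n : ℝ) ^ (-s) :=
  spl_tsum_fibre (fun I : Ideal (𝓞 K) => Ideal.absNorm I) (fun n : ℕ => (n : ℝ) ^ (-s))
    (fun n => Real.rpow_nonneg (Nat.cast_nonneg n) _)
    (fun n => Ideal.finite_setOfPred_absNorm_eq n) (spl_count_summable K hs)

theorem spl_zetaR_summable {s : ℝ} (hs : 1 < s) :
    Summable (fun I : Ideal (𝓞 K) => (Ideal.absNorm I : ℝ) ^ (-s)) :=
  (spl_zetaR_fibre K hs).1

theorem spl_zetaR_eq {s : ℝ} (hs : 1 < s) : dedekindZeta K (s : ℂ) = ((zetaR K s : ℝ) : ℂ) := by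
  rw [(spl_zetaR_fibre K hs).2, Complex.ofReal_tsum]
  simp_rw [← spl_term_eq K hs]
  rfl

theorem spl_zetaR_tendsto :
    Tendsto (fun s : ℝ => (s - 1) * zetaR K s) (𝓝[>] 1) (𝓝 (dedekindZeta_residue K)) := by
  have h := tendsto_sub_one_mul_dedekindZeta_nhdsGT K
  have h2 := (Complex.continuous_re.tendsto _).comp h
  simp only [Complex.ofReal_re] at h2
  refine h2.congr' ?_
  filter_upwards [self_mem_nhdsWithin] with s hs
  have hs' : 1 < s := hs
  simp only [Function.comp_apply]
  rw [spl_zetaR_eq K hs', ← Complex.ofReal_one, ← Complex.ofReal_sub, ← Complex.ofReal_mul,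
    Complex.ofReal_re]

/-- the unit ideal contributes `1`. -/
theorem spl_one_le_zetaR {s : ℝ} (hs : 1 < s) : 1 ≤ zetaR K s := by
  have := (spl_zetaR_summable K hs).le_tsum (⊤ : Ideal (𝓞 K))
    (fun J _ => Real.rpow_nonneg (Nat.cast_nonneg _) _)
  unfold zetaR
  simpa using this

theorem spl_zetaR_anti {s t : ℝ} (hs : 1 < s) (hst : s ≤ t) : zetaR K t ≤ zetaR K s := by
  refine (spl_zetaR_summable K (hs.trans_le hst)).tsum_le_tsum (fun I => ?_)
    (spl_zetaR_summable K hs)
  rcases Nat.eq_zero_or_pos (Ideal.absNorm I) with h | h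
  · rw [h, Nat.cast_zero, Real.zero_rpow (by linarith), Real.zero_rpow (by linarith)]
  · exact Real.rpow_le_rpow_of_exponent_le (by exact_mod_cast h) (by linarith)

/-- Sketch: `log ζ(s) - LL s = log ((s-1) ζ(s))`.  Near `1` the argument tends to the residue `> 0`;
on `[1+η, 2]` it lies in `[η, ζ(1+η)]` by `spl_one_le_zetaR`, `spl_zetaR_anti`. -/
theorem spl_log_zetaR_asymp : Asymp (fun s => Real.log (zetaR K s)) 1 := by
  set ρ := dedekindZeta_residue K with hρ
  have hρ0 : 0 < ρ := dedekindZeta_residue_pos K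
  have ht := spl_zetaR_tendsto K
  rw [Metric.tendsto_nhdsWithin_nhds] at ht
  obtain ⟨η, hη, hclose⟩ := ht (ρ / 2) (by linarith)
  -- bounds for g s = (s - 1) ζ(s)
  set m := min (ρ / 2) η with hm
  set M := max (2 * ρ) (zetaR K (1 + η)) with hM
  have hm0 : 0 < m := lt_min (by linarith) hη
  have hbd : ∀ s : ℝ, 1 < s → s ≤ 2 → m ≤ (s - 1) * zetaR K s ∧ (s - 1) * zetaR K s ≤ M := by
    intro s h1 h2
    by_cases hc : s < 1 + η
    · have hd : dist s 1 < η := by
        rw [Real.dist_eq, abs_of_pos (by linarith)]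
        linarith
      have := hclose (show s ∈ Set.Ioi (1 : ℝ) from h1) hd
      rw [Real.dist_eq, abs_lt] at this
      constructor
      · exact (min_le_left _ _).trans (by linarith [this.1])
      · exact le_trans (by linarith [this.2]) (le_max_left _ _)
    · push Not at hc
      have hz1 := spl_one_le_zetaR K h1
      have hz2 := spl_zetaR_anti K (s := 1 + η) (t := s) (by linarith) hc
      constructor
      · refine (min_le_right _ _).trans ?_
        nlinarith
      · refine le_trans ?_ (le_max_right _ _)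
        nlinarith
  refine ⟨|Real.log m| + |Real.log M|, fun s h1 h2 => ?_⟩
  obtain ⟨hb1, hb2⟩ := hbd s h1 h2
  have hz : 0 < zetaR K s := lt_of_lt_of_le one_pos (spl_one_le_zetaR K h1)
  have e : Real.log (zetaR K s) - 1 * LL s = Real.log ((s - 1) * zetaR K s) := by
    unfold LL
    rw [Real.log_mul (by linarith) hz.ne']
    ring
  rw [e]
  have l1 := Real.log_le_log hm0 hb1
  have l2 := Real.log_le_log (lt_of_lt_of_le hm0 hb1) hb2
  rw [abs_le]
  constructor
  · have := neg_abs_le (Real.log m)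
    have := abs_nonneg (Real.log M)
    linarith
  · have := le_abs_self (Real.log M)
    have := abs_nonneg (Real.log m)
    linarith

end Claimed.Agent.R239.SPL
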