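/-
R239 / SPL : `∑_v N v^(-s) = log ζ_K(s) + O(1) = log (1/(s-1)) + O(1)`.
-/
import Claimed.Agent.R239.SPL.ZetaR
import Claimed.Agent.R239.SPL.EulerFin

set_option autoImplicit false

namespace Claimed.Agent.R239.SPL

open IsDedekindDomain NumberField

variable (K : Type*) [Field K] [NumberField K]

/-- from `spl_euler_fin` and `spl_zetaR_summable` (indicator ≤ full nonnegative series). -/
theorem spl_prod_le_zetaR (T : Finset (Pl K)) {s : ℝ} (hs : 1 < s) :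
    ∏ v ∈ T, (1 - wt s v)⁻¹ ≤ zetaR K s := by
  have h := spl_euler_fin T (s := s) (by linarith)
  rw [← h.tsum_eq]
  exact h.summable.tsum_le_tsum
    (fun I => Set.indicator_le_self' (fun _ _ => Real.rpow_nonneg (Nat.cast_nonneg _) _) I)
    (spl_zetaR_summable K hs)

theorem spl_exp_le_inv {x : ℝ} (hx : x < 1) : Real.exp x ≤ (1 - x)⁻¹ := by
  have h1 := Real.one_sub_le_exp_neg x
  have h2 : 0 < 1 - x := by linarith
  rw [Real.exp_neg] at h1
  have h3 := inv_anti₀ h2 h1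
  rwa [inv_inv] at h3

theorem spl_inv_le_exp {x : ℝ} (h0 : 0 ≤ x) (hx : x ≤ 1 / 2) :
    (1 - x)⁻¹ ≤ Real.exp (x + x ^ 2) := by
  have h1 := Real.quadratic_le_exp_of_nonneg (x := x + x ^ 2) (by positivity)
  have h2 : 0 < 1 - x := by linarith
  rw [inv_le_iff_one_le_mul₀' h2]
  have h3 : 1 ≤ (1 - x) * (1 + (x + x ^ 2) + (x + x ^ 2) ^ 2 / 2) := by
    have e : (1 - x) * (1 + (x + x ^ 2) + (x + x ^ 2) ^ 2 / 2) - 1
        = x ^ 2 * ((1 - x) * (1 + x) ^ 2 - 2 * x) / 2 := by ring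
    have h4 : 0 ≤ (1 - x) * (1 + x) ^ 2 - 2 * x := by nlinarith
    have h5 : 0 ≤ x ^ 2 * ((1 - x) * (1 + x) ^ 2 - 2 * x) / 2 := by positivity
    linarith
  exact h3.trans (mul_le_mul_of_nonneg_left h1 h2.le)

/-- `exp x ≤ (1-x)⁻¹` gives `∑_{v∈T} wt ≤ log ζ` for all finite `T`. -/
theorem spl_sum_wt_le_log (T : Finset (Pl K)) {s : ℝ} (hs : 1 < s) :
    ∑ v ∈ T, wt s v ≤ Real.log (zetaR K s) := by
  rw [Real.le_log_iff_exp_le (lt_of_lt_of_le one_pos (spl_one_le_zetaR K hs)), Real.exp_sum]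
  refine le_trans ?_ (spl_prod_le_zetaR K T hs)
  exact Finset.prod_le_prod (fun v _ => (Real.exp_pos _).le)
    (fun v _ => spl_exp_le_inv (spl_wt_lt_one (by linarith) v))

theorem spl_summable_wt {s : ℝ} (hs : 1 < s) : Summable (wt s : Pl K → ℝ) :=
  summable_of_sum_le (fun v => (spl_wt_pos s v).le) (fun T => spl_sum_wt_le_log K T hs)

theorem spl_tsum_wt_le_log {s : ℝ} (hs : 1 < s) :
    ∑' v : Pl K, wt s v ≤ Real.log (zetaR K s) :=
  (spl_summable_wt K hs).tsum_le_of_sum_le (fun T => spl_sum_wt_le_log K T hs)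

/-- `(wt s v)^2 = N v^(-2s) ≤ N v^(-2)`, and `v ↦ v.asIdeal` is injective. -/
theorem spl_sum_sq_le {s : ℝ} (hs : 1 ≤ s) :
    Summable (fun v : Pl K => (wt s v) ^ 2) ∧ ∑' v : Pl K, (wt s v) ^ 2 ≤ zetaR K 2 := by
  have hinj : Function.Injective (fun v : Pl K => v.asIdeal) := fun v w h =>
    HeightOneSpectrum.ext h
  have hz := spl_zetaR_summable K (s := 2) (by norm_num)
  have hc : Summable (fun v : Pl K => (Ideal.absNorm v.asIdeal : ℝ) ^ (-(2 : ℝ))) :=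
    hz.comp_injective hinj
  have hle : ∀ v : Pl K, (wt s v) ^ 2 ≤ (Ideal.absNorm v.asIdeal : ℝ) ^ (-(2 : ℝ)) := by
    intro v
    have h1 := spl_wt_anti hs v
    have h2 : (wt s v) ^ 2 ≤ (wt 1 v) ^ 2 := pow_le_pow_left₀ (spl_wt_pos s v).le h1 2
    refine h2.trans (le_of_eq ?_)
    unfold wt nrm
    rw [← Real.rpow_natCast, ← Real.rpow_mul (Nat.cast_nonneg _)]
    norm_num
  have hsq : Summable (fun v : Pl K => (wt s v) ^ 2) :=
    Summable.of_nonneg_of_le (fun v => sq_nonneg _) hle hc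
  refine ⟨hsq, (hsq.tsum_le_tsum hle hc).trans ?_⟩
  exact tsum_comp_le_tsum_of_inj hz (fun I => Real.rpow_nonneg (Nat.cast_nonneg _) _) hinj

/-- every finite partial sum of `ζ` is `≤ ∏_{v∈T} (1-wt)⁻¹ ≤ exp (∑ (wt + wt^2))`
(`(1-x)⁻¹ ≤ exp (x + x^2)` for `0 ≤ x ≤ 1/2`), by `spl_exists_suppIn` and `spl_euler_fin`. -/
theorem spl_log_le_tsum_wt {s : ℝ} (hs : 1 < s) :
    Real.log (zetaR K s) ≤ ∑' v : Pl K, wt s v + ∑' v : Pl K, (wt s v) ^ 2 := by
  classical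
  rw [Real.log_le_iff_le_exp (lt_of_lt_of_le one_pos (spl_one_le_zetaR K hs))]
  have hw := spl_summable_wt K hs
  have hq := (spl_sum_sq_le K hs.le).1
  refine (spl_zetaR_summable K hs).tsum_le_of_sum_le (fun A => ?_)
  obtain ⟨T, hT⟩ := spl_exists_suppIn (A.filter (fun I => I ≠ ⊥))
    (fun I hI => (Finset.mem_filter.mp hI).2)
  have h := spl_euler_fin T (s := s) (by linarith)
  have hnn : ∀ I : Ideal (𝓞 K), 0 ≤ (suppIn T).indicator
      (fun I : Ideal (𝓞 K) => (Ideal.absNorm I : ℝ) ^ (-s)) I := fun J =>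
    Set.indicator_nonneg (fun I _ => Real.rpow_nonneg (Nat.cast_nonneg _) _) J
  have h1 : ∑ I ∈ A, (Ideal.absNorm I : ℝ) ^ (-s) ≤ ∑ I ∈ A, (suppIn T).indicator
      (fun I : Ideal (𝓞 K) => (Ideal.absNorm I : ℝ) ^ (-s)) I := by
    refine Finset.sum_le_sum (fun I hI => ?_)
    by_cases hb : I = ⊥
    · subst hb
      rw [Ideal.absNorm_bot, Nat.cast_zero, Real.zero_rpow (by linarith)]
      exact hnn _
    · rw [Set.indicator_of_mem (hT I (Finset.mem_filter.mpr ⟨hI, hb⟩))]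
  have h2 := h.summable.sum_le_tsum A (fun I _ => hnn I)
  rw [h.tsum_eq] at h2
  have h3 : ∏ v ∈ T, (1 - wt s v)⁻¹ ≤ ∏ v ∈ T, Real.exp (wt s v + wt s v ^ 2) :=
    Finset.prod_le_prod
      (fun v _ => inv_nonneg.mpr (by linarith [spl_wt_lt_one (s := s) (by linarith) v]))
      (fun v _ => spl_inv_le_exp (spl_wt_pos s v).le (spl_wt_le_half hs.le v))
  rw [← Real.exp_sum, Finset.sum_add_distrib] at h3
  have h4 := hw.sum_le_tsum T (fun v _ => (spl_wt_pos s v).le)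
  have h5 := hq.sum_le_tsum T (fun v _ => sq_nonneg _)
  exact h1.trans (h2.trans (h3.trans (Real.exp_le_exp.mpr (add_le_add h4 h5))))

theorem spl_mass_univ_eq (s : ℝ) : mass (Set.univ : Set (Pl K)) s = ∑' v : Pl K, wt s v := by
  simp [mass, gmass]

theorem spl_mass_univ_asymp : Asymp (mass (Set.univ : Set (Pl K))) 1 := by
  refine spl_asymp_of_bdd_sub (spl_log_zetaR_asymp K) (zetaR K 2) (fun s h1 h2 => ?_)
  rw [spl_mass_univ_eq]
  have a1 := spl_tsum_wt_le_log K h1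
  have a2 := spl_log_le_tsum_wt K h1
  have a3 := (spl_sum_sq_le K h1.le).2
  have a4 : 0 ≤ zetaR K 2 := le_trans zero_le_one (spl_one_le_zetaR K (by norm_num))
  rw [abs_le]
  constructor <;> linarith

end Claimed.Agent.R239.SPL
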