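/-
R239 / SPL : primes of degree `≥ 2` have bounded mass; degree one primes have mass `~ LL`.
-/
import Claimed.Agent.R239.SPL.EulerLog

set_option autoImplicit false

namespace Claimed.Agent.R239.SPL

open IsDedekindDomain NumberField

/-- the number of primes above a prime is at most the rank -/
theorem spl_ncard_primesOver_le {R : Type*} [CommRing R] [IsDomain R] (p : Ideal R) [p.IsPrime]
    (S : Type*) [CommRing S] [Algebra R S] [Module.Finite R S] [Module.Flat R S]
    (hfin : (p.primesOver S).Finite) : (p.primesOver S).ncard ≤ Module.finrank R S := by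
  classical
  have : Fintype (p.primesOver S) := hfin.fintype
  rw [← Ideal.sum_ramification_inertia_eq_finrank p S, ← Nat.card_coe_set_eq,
    Nat.card_eq_fintype_card, Fintype.card_eq_sum_ones]
  refine Finset.sum_le_sum (fun q _ => ?_)
  have : q.1.IsPrime := q.2.1
  exact Nat.mul_pos (Ideal.ramificationIdx_pos q.1 R) (Ideal.inertiaDeg_pos q.1 R)

variable (K : Type*) [Field K] [NumberField K]

/-- the rational prime below `v` -/
noncomputable def chr {K : Type*} [Field K] [NumberField K] (v : Pl K) : ℕ :=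
  Ideal.absNorm (v.asIdeal.under ℤ)

theorem spl_chr_prime (v : Pl K) : (chr v).Prime := by
  have : NeZero v.asIdeal := ⟨v.ne_bot⟩
  exact Nat.absNorm_under_prime v.asIdeal

theorem spl_span_chr (v : Pl K) : Ideal.span {((chr v : ℕ) : ℤ)} = v.asIdeal.under ℤ :=
  Int.ideal_span_absNorm_eq_self _

/-- `N v = p ^ f`, `f = inertiaDeg ≥ 1` (`Ideal.pow_inertiaDeg`). -/
theorem spl_nrm_eq_chr_pow (v : Pl K) : ∃ f : ℕ, 1 ≤ f ∧ nrm v = chr v ^ f := by
  have : v.asIdeal.LiesOver (Ideal.span {((chr v : ℕ) : ℤ)}) := ⟨spl_span_chr K v⟩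
  exact ⟨v.asIdeal.inertiaDeg ℤ, Ideal.inertiaDeg_pos _ _,
    (Ideal.pow_inertiaDeg (chr v) v.asIdeal).symm⟩

theorem spl_chr_mem (v : Pl K) : ((chr v : ℕ) : 𝓞 K) ∈ v.asIdeal := by
  have := Int.absNorm_under_mem v.asIdeal
  simpa [chr] using this

theorem spl_chr_eq_of_mem (v : Pl K) {p : ℕ} (hp : p.Prime) (h : (p : 𝓞 K) ∈ v.asIdeal) :
    chr v = p := by
  have h1 : ((p : ℕ) : ℤ) ∈ v.asIdeal.under ℤ := by
    rw [Ideal.mem_under]
    simpa using h
  rw [← spl_span_chr, Ideal.mem_span_singleton] at h1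
  have h2 : chr v ∣ p := by exact_mod_cast h1
  exact (Nat.prime_dvd_prime_iff_eq (spl_chr_prime K v) hp).mp h2

/-- at most `[K:ℚ]` primes above `p`. -/
theorem spl_chr_fibre (p : ℕ) :
    {v : Pl K | chr v = p}.Finite ∧ {v : Pl K | chr v = p}.ncard ≤ Module.finrank ℚ K := by
  by_cases hp : p.Prime
  · have hpp : (Ideal.span {(p : ℤ)}).IsPrime := by
      rw [Ideal.span_singleton_prime (by exact_mod_cast hp.ne_zero)]
      exact Nat.prime_iff_prime_int.mp hp
    have hpm : (Ideal.span {(p : ℤ)}).IsMaximal :=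
      hpp.isMaximal (by simpa using hp.ne_zero)
    have hfin : ((Ideal.span {(p : ℤ)}).primesOver (𝓞 K)).Finite :=
      IsDedekindDomain.primesOver_finite _ _
    have hinj : Set.InjOn (fun v : Pl K => v.asIdeal) {v : Pl K | chr v = p} :=
      fun v _ w _ h => HeightOneSpectrum.ext h
    have hmaps : Set.MapsTo (fun v : Pl K => v.asIdeal) {v : Pl K | chr v = p}
        ((Ideal.span {(p : ℤ)}).primesOver (𝓞 K)) := by
      intro v hv
      have hv' : chr v = p := hv
      refine ⟨v.isPrime, ⟨?_⟩⟩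
      rw [← hv']
      exact spl_span_chr K v
    refine ⟨Set.Finite.of_injOn hmaps hinj hfin, ?_⟩
    refine (Set.ncard_le_ncard_of_injOn _ hmaps hinj hfin).trans ?_
    rw [← RingOfIntegers.rank K]
    exact spl_ncard_primesOver_le _ _ hfin
  · have : {v : Pl K | chr v = p} = ∅ := by
      ext v
      simp only [Set.mem_ofPred_eq, Set.mem_empty_iff_false, iff_false]
      intro h
      exact hp (h ▸ spl_chr_prime K v)
    rw [this]
    simp

theorem spl_wt_le_of_not_deg1 {s : ℝ} (hs : 1 ≤ s) {v : Pl K} (hv : v ∉ deg1 K) :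
    wt s v ≤ ((chr v : ℕ) : ℝ) ^ (-(2 : ℝ)) := by
  obtain ⟨f, hf1, hf⟩ := spl_nrm_eq_chr_pow K v
  have hp := spl_chr_prime K v
  have hf2 : 2 ≤ f := by
    by_contra hlt
    have : f = 1 := by omega
    subst this
    apply hv
    change (nrm v).Prime
    rw [hf, pow_one]
    exact hp
  refine (spl_wt_anti hs v).trans ?_
  unfold wt
  rw [hf, Real.rpow_neg_one, Real.rpow_neg (Nat.cast_nonneg _)]
  have hp1 : (1 : ℝ) ≤ (chr v : ℝ) := by exact_mod_cast hp.one_lt.le
  have h2 : ((chr v : ℕ) : ℝ) ^ (2 : ℝ) ≤ ((chr v ^ f : ℕ) : ℝ) := by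
    rw [Nat.cast_pow, Real.rpow_two]
    exact pow_le_pow_right₀ hp1 hf2
  exact inv_anti₀ (by positivity) h2

/-- for `v ∉ deg1`: `N v ≥ p^2`, so `wt s v ≤ p^(-2)`; sum along the fibres of `chr`
(`spl_gmass_fibre_le`): bound `[K:ℚ] * ∑ n^(-2)`. -/
theorem spl_mass_not_deg1_bdd : ∃ C : ℝ, ∀ s : ℝ, 1 < s → mass ((deg1 K)ᶜ) s ≤ C := by
  have hu : Summable (fun n : ℕ => (n : ℝ) ^ (-(2 : ℝ))) := by
    rw [Real.summable_nat_rpow]
    norm_num
  obtain ⟨hs1, hs2⟩ := spl_gmass_fibre_le (fun v : Pl K => chr v)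
    (fun n : ℕ => (n : ℝ) ^ (-(2 : ℝ))) (fun n => Real.rpow_nonneg (Nat.cast_nonneg n) _) hu
    (Module.finrank ℚ K) (fun p => (spl_chr_fibre K p).1) (fun p => (spl_chr_fibre K p).2)
  refine ⟨_, fun s hs => le_trans ?_ hs2⟩
  unfold mass gmass
  refine ((spl_summable_wt K hs).indicator _).tsum_le_tsum (fun v => ?_) hs1
  by_cases hv : v ∈ (deg1 K)ᶜ
  · rw [Set.indicator_of_mem hv]
    exact spl_wt_le_of_not_deg1 K hs.le hv
  · rw [Set.indicator_of_notMem hv]
    exact Real.rpow_nonneg (Nat.cast_nonneg _) _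

theorem spl_mass_deg1_asymp : Asymp (mass (deg1 K)) 1 := by
  obtain ⟨C, hC⟩ := spl_mass_not_deg1_bdd K
  refine spl_asymp_of_bdd_sub (spl_mass_univ_asymp K) C (fun s h1 _ => ?_)
  have hw := spl_summable_wt K h1
  have hu := spl_gmass_union (w := wt s) (S := deg1 K) (T := (deg1 K)ᶜ) hw disjoint_compl_right
  rw [Set.union_compl_self] at hu
  have h0 : 0 ≤ mass ((deg1 K)ᶜ) s := spl_gmass_nonneg (fun v => (spl_wt_pos s v).le) _
  have h3 := hC s h1
  unfold mass at *
  rw [hu, abs_le]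
  constructor <;> linarith

end Claimed.Agent.R239.SPL
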