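/-
R239 / SPL : algebraic facts on primes in a Galois extension `F / K` of number fields.
-/
import Claimed.Agent.R239.SPL.DegOne

set_option autoImplicit false
set_option linter.unusedSectionVars false

namespace Claimed.Agent.R239.SPL

open IsDedekindDomain NumberField
open scoped Pointwise

variable (K : Type*) [Field K] [NumberField K] (F : Type*) [Field F] [NumberField F] [Algebra K F]

instance spl_liesOver_under (w : Pl F) : w.asIdeal.LiesOver (w.under (𝓞 K)).asIdeal := ⟨rfl⟩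

theorem spl_liesOver_of_under {w : Pl F} {v : Pl K} (h : w.under (𝓞 K) = v) :
    w.asIdeal.LiesOver v.asIdeal := by
  subst h
  infer_instance

/-- `N w = N v ^ f(w/v)`. -/
theorem spl_nrm_eq_pow (w : Pl F) :
    nrm w = nrm (w.under (𝓞 K)) ^ (w.asIdeal.inertiaDeg (𝓞 K)) :=
  (Ideal.absNorm_pow_inertiaDeg (w.under (𝓞 K)).asIdeal w.asIdeal).symm

theorem spl_nrm_under_of_deg1 (w : Pl F) (hw : w ∈ deg1 F) : nrm (w.under (𝓞 K)) = nrm w := by
  have hp : (nrm w).Prime := hw
  exact ((Nat.Prime.pow_eq_iff hp).mp (spl_nrm_eq_pow K F w).symm).1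

theorem spl_inertiaDeg_of_deg1 (w : Pl F) (hw : w ∈ deg1 F) : w.asIdeal.inertiaDeg (𝓞 K) = 1 := by
  have hp : (nrm w).Prime := hw
  exact ((Nat.Prime.pow_eq_iff hp).mp (spl_nrm_eq_pow K F w).symm).2

/-- the fibre of `under` over `v` is in bijection with `primesOver`. -/
theorem spl_image_fibre (v : Pl K) :
    (fun w : Pl F => w.asIdeal) '' {w : Pl F | w.under (𝓞 K) = v} =
      v.asIdeal.primesOver (𝓞 F) := by
  ext P
  constructor
  · rintro ⟨w, hw, rfl⟩
    exact ⟨w.isPrime, spl_liesOver_of_under K F hw⟩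
  · rintro ⟨hP1, hP2⟩
    have hb : P ≠ ⊥ := Ideal.ne_bot_of_mem_primesOver v.ne_bot ⟨hP1, hP2⟩
    refine ⟨⟨P, hP1, hb⟩, ?_, rfl⟩
    apply HeightOneSpectrum.ext
    exact hP2.over.symm

theorem spl_asIdeal_injective : Function.Injective (fun w : Pl F => w.asIdeal) :=
  fun _ _ h => HeightOneSpectrum.ext h

theorem spl_fibre_finite (v : Pl K) : {w : Pl F | w.under (𝓞 K) = v}.Finite := by
  have : v.asIdeal.IsMaximal := v.isMaximal
  have h := IsDedekindDomain.primesOver_finite v.asIdeal (𝓞 F)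
  rw [← spl_image_fibre] at h
  exact h.of_finite_image (spl_asIdeal_injective F).injOn

theorem spl_fibre_ncard (v : Pl K) :
    {w : Pl F | w.under (𝓞 K) = v}.ncard = (v.asIdeal.primesOver (𝓞 F)).ncard := by
  rw [← spl_image_fibre, Set.ncard_image_of_injective _ (spl_asIdeal_injective F)]

theorem spl_fibre_nonempty (v : Pl K) : ∃ w : Pl F, w.under (𝓞 K) = v := by
  have : v.asIdeal.IsMaximal := v.isMaximal
  obtain ⟨P, hPm, hp⟩ := Ideal.exists_maximal_ideal_liesOver_of_isIntegral (S := 𝓞 F) v.asIdeal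
  have hmem : P ∈ v.asIdeal.primesOver (𝓞 F) := ⟨hPm.isPrime, hp⟩
  rw [← spl_image_fibre] at hmem
  obtain ⟨w, hw, _⟩ := hmem
  exact ⟨w, hw⟩

theorem spl_fibre_ncard_le (v : Pl K) :
    {w : Pl F | w.under (𝓞 K) = v}.ncard ≤ Module.finrank K F := by
  have : v.asIdeal.IsMaximal := v.isMaximal
  rw [spl_fibre_ncard, IsFractionRing.finrank_eq (𝓞 K) K (𝓞 F) F]
  exact spl_ncard_primesOver_le _ _ (IsDedekindDomain.primesOver_finite v.asIdeal (𝓞 F))

variable [IsGalois K F]

/-- transitivity of the Galois action on the primes above `v`. -/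
theorem spl_exists_smul (w w' : Pl F) (h : w.under (𝓞 K) = w'.under (𝓞 K)) :
    ∃ σ : Gal(F/K), σ • w.asIdeal = w'.asIdeal := by
  have := spl_liesOver_of_under K F h
  exact Ideal.exists_smul_eq_of_isGaloisGroup (w'.under (𝓞 K)).asIdeal w.asIdeal w'.asIdeal
    Gal(F/K)

/-- stabilisers of conjugate primes are conjugate. -/
theorem spl_stabilizer_smul (σ : Gal(F/K)) (P : Ideal (𝓞 F)) :
    MulAction.stabilizer Gal(F/K) (σ • P) =
      (MulAction.stabilizer Gal(F/K) P).map (MulAut.conj σ).toMonoidHom :=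
  MulAction.stabilizer_smul_eq_stabilizer_map_conj σ P

/-- `|D_w| = |I_w| f(w/v)`. -/
theorem spl_card_stabilizer (w : Pl F) :
    Nat.card (MulAction.stabilizer Gal(F/K) w.asIdeal) =
      Nat.card (w.asIdeal.toAddSubgroup.inertia Gal(F/K)) * w.asIdeal.inertiaDeg (𝓞 K) :=
  Ideal.card_stabilizer_eq_card_inertia_mul_finrank (w.under (𝓞 K)).asIdeal w.asIdeal

theorem spl_split_subset_unr : Split K F ⊆ Unr K F := by
  intro v hv w hw
  have h1 := hv w hw
  have h2 := Ideal.inertia_le_stabilizer (M := Gal(F/K)) w.asIdeal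
  rw [h1] at h2
  exact le_bot_iff.mp h2

/-- `f(w/v)` only depends on `v`. -/
theorem spl_inertiaDeg_eq (w w' : Pl F) (h : w.under (𝓞 K) = w'.under (𝓞 K)) :
    w.asIdeal.inertiaDeg (𝓞 K) = w'.asIdeal.inertiaDeg (𝓞 K) := by
  have := spl_liesOver_of_under K F h
  rw [← Ideal.inertiaDegIn_eq_inertiaDeg (w'.under (𝓞 K)).asIdeal w.asIdeal Gal(F/K),
    ← Ideal.inertiaDegIn_eq_inertiaDeg (w'.under (𝓞 K)).asIdeal w'.asIdeal Gal(F/K)]

/-- orbit-stabiliser: the fibre is one orbit with trivial stabiliser. -/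
theorem spl_fibre_card_of_split (v : Pl K) (hv : v ∈ Split K F) :
    {w : Pl F | w.under (𝓞 K) = v}.ncard = Module.finrank K F := by
  obtain ⟨w, hw⟩ := spl_fibre_nonempty K F v
  have := spl_liesOver_of_under K F hw
  have h1 := Ideal.ncard_primesOver_mul_ramificationIdxIn_mul_inertiaDegIn v.asIdeal (𝓞 F)
    Gal(F/K)
  have h2 := Ideal.card_stabilizer_eq (G := Gal(F/K)) v.asIdeal w.asIdeal
  rw [hv w hw, Subgroup.card_bot] at h2
  rw [← h2, mul_one, IsGalois.card_aut_eq_finrank] at h1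
  rw [spl_fibre_ncard, h1]

theorem spl_inertiaDeg_of_split (v : Pl K) (hv : v ∈ Split K F) (w : Pl F)
    (hw : w.under (𝓞 K) = v) : w.asIdeal.inertiaDeg (𝓞 K) = 1 := by
  have h := spl_card_stabilizer K F w
  rw [hv w hw, Subgroup.card_bot] at h
  exact Nat.eq_one_of_mul_eq_one_left h.symm

theorem spl_nrm_of_split (v : Pl K) (hv : v ∈ Split K F) (w : Pl F) (hw : w.under (𝓞 K) = v) :
    nrm w = nrm v := by
  rw [spl_nrm_eq_pow K F w, spl_inertiaDeg_of_split K F v hv w hw, pow_one, hw]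

theorem spl_split_of_deg1_unr (w : Pl F) (hw : w ∈ deg1 F) (hu : w.under (𝓞 K) ∈ Unr K F) :
    w.under (𝓞 K) ∈ Split K F := by
  intro w' hw'
  have h := spl_card_stabilizer K F w'
  rw [hu w' hw', Subgroup.card_bot, one_mul, spl_inertiaDeg_eq K F w' w hw',
    spl_inertiaDeg_of_deg1 K F w hw] at h
  exact (Subgroup.card_eq_one).mp h

/-- `|I_w| = e(w/v)`. -/
theorem spl_card_inertia (w : Pl F) :
    Nat.card (w.asIdeal.toAddSubgroup.inertia Gal(F/K)) = w.asIdeal.ramificationIdx (𝓞 K) := by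
  rw [← Ideal.ramificationIdxIn_eq_ramificationIdx (w.under (𝓞 K)).asIdeal w.asIdeal Gal(F/K)]
  exact Ideal.card_inertia_eq_ramificationIdxIn (w.under (𝓞 K)).asIdeal w.asIdeal

/-- ramified primes divide the different. -/
theorem spl_unr_cofinite : ((Unr K F)ᶜ).Finite := by
  let _ : Algebra (FractionRing (𝓞 K)) (FractionRing (𝓞 F)) := FractionRing.liftAlgebra _ _
  have hfin : {w : Pl F | w.asIdeal ∣ differentIdeal (𝓞 K) (𝓞 F)}.Finite :=
    Ideal.finite_factors (differentIdeal_ne_bot)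
  refine (hfin.image (fun w : Pl F => w.under (𝓞 K))).subset ?_
  intro v hv
  simp only [Unr, Set.mem_compl_iff, Set.mem_ofPred_eq, not_forall] at hv
  obtain ⟨w, hw, hne⟩ := hv
  refine ⟨w, ?_, hw⟩
  change w.asIdeal ∣ differentIdeal (𝓞 K) (𝓞 F)
  rw [dvd_differentIdeal_iff, ← Ideal.ramificationIdx_eq_one_iff, ← spl_card_inertia K F w,
    Subgroup.card_eq_one]
  exact hne

end Claimed.Agent.R239.SPL
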