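/-
R239 / SPL : `v` splits completely in the fixed field of a normal subgroup `H ≤ Gal(L/K)` iff all
decomposition groups of `v` in `Gal(L/K)` are contained in `H`.
-/
import Claimed.Agent.R239.SPL.SplitAlg

set_option autoImplicit false
set_option linter.unusedSectionVars false

namespace Claimed.Agent.R239.SPL

open IsDedekindDomain NumberField
open scoped Pointwise

section tower

variable (K : Type*) [Field K] [NumberField K] (F : Type*) [Field F] [NumberField F] [Algebra K F]
  (L : Type*) [Field L] [NumberField L] [Algebra K L] [Algebra F L] [IsScalarTower K F L]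

theorem spl_under_under (w : Pl L) : (w.under (𝓞 F)).under (𝓞 K) = w.under (𝓞 K) := by
  apply HeightOneSpectrum.ext
  exact Ideal.under_under (A := 𝓞 K) (B := 𝓞 F) w.asIdeal

theorem spl_coe_smul (σ : Gal(L/K)) (x : 𝓞 L) : ((σ • x : 𝓞 L) : L) = σ (x : L) := rfl

theorem spl_coe_algebraMap (x : 𝓞 F) :
    ((algebraMap (𝓞 F) (𝓞 L) x : 𝓞 L) : L) = algebraMap F L (x : F) := rfl

/-- an element of `Gal(L/F)` seen in `Gal(L/K)` acts in the same way on ideals -/
theorem spl_restrictScalars_smul (h : Gal(L/F)) (P : Ideal (𝓞 L)) :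
    (AlgEquiv.restrictScalars K h : Gal(L/K)) • P = h • P := by
  ext x
  rw [Ideal.mem_pointwise_smul_iff_inv_smul_mem, Ideal.mem_pointwise_smul_iff_inv_smul_mem]
  rfl

variable [IsGalois K F]

theorem spl_algebraMap_restrict_smul (g : Gal(L/K)) (x : 𝓞 F) :
    algebraMap (𝓞 F) (𝓞 L) ((AlgEquiv.restrictNormalHom F g) • x) =
      g • algebraMap (𝓞 F) (𝓞 L) x := by
  apply RingOfIntegers.ext
  rw [spl_coe_algebraMap, spl_coe_smul, spl_coe_smul, spl_coe_algebraMap]
  exact AlgEquiv.restrictNormal_commutes g F (x : F)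

theorem spl_restrict_smul_under (g : Gal(L/K)) (P : Ideal (𝓞 L)) :
    (AlgEquiv.restrictNormalHom F g) • (P.under (𝓞 F)) = (g • P).under (𝓞 F) := by
  ext x
  rw [Ideal.mem_pointwise_smul_iff_inv_smul_mem, Ideal.mem_under, Ideal.mem_under,
    Ideal.mem_pointwise_smul_iff_inv_smul_mem, ← map_inv, spl_algebraMap_restrict_smul]

theorem spl_restrictScalars_mem_ker (h : Gal(L/F)) :
    (AlgEquiv.restrictScalars K h : Gal(L/K)) ∈ (AlgEquiv.restrictNormalHom (F := K) (K₁ := L) F).ker := by
  rw [MonoidHom.mem_ker]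
  ext x
  apply (algebraMap F L).injective
  have := AlgEquiv.restrictNormal_commutes (AlgEquiv.restrictScalars K h : Gal(L/K)) F x
  refine Eq.trans this ?_
  simp

variable [IsGalois K L]

theorem spl_split_iff_decLe_ker (v : Pl K) :
    v ∈ Split K F ↔ v ∈ DecLe K L (AlgEquiv.restrictNormalHom (F := K) (K₁ := L) F).ker := by
  constructor
  · intro hv w' hw' g hg
    rw [MonoidHom.mem_ker]
    have h1 : (w'.under (𝓞 F)).under (𝓞 K) = v := by rw [spl_under_under, hw']
    have h2 := hv (w'.under (𝓞 F)) h1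
    have h3 : AlgEquiv.restrictNormalHom F g ∈
        MulAction.stabilizer Gal(F/K) (w'.under (𝓞 F)).asIdeal := by
      rw [MulAction.mem_stabilizer_iff]
      change (AlgEquiv.restrictNormalHom F g) • (w'.asIdeal.under (𝓞 F)) = w'.asIdeal.under (𝓞 F)
      rw [spl_restrict_smul_under, MulAction.mem_stabilizer_iff.mp hg]
    rw [h2] at h3
    exact Subgroup.mem_bot.mp h3
  · intro hv w hw
    rw [eq_bot_iff]
    intro τ hτ
    rw [Subgroup.mem_bot]
    obtain ⟨g, rfl⟩ := AlgEquiv.restrictNormalHom_surjective (F := K) (K₁ := F) L τ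
    obtain ⟨w', hw'⟩ := spl_fibre_nonempty F L w
    have hw'K : w'.under (𝓞 K) = v := by rw [← spl_under_under K F L, hw', hw]
    -- `g • w'` as a height one prime
    have hw'a : w'.asIdeal.under (𝓞 F) = w.asIdeal := congrArg HeightOneSpectrum.asIdeal hw'
    have hgu : (g • w'.asIdeal).under (𝓞 F) = w.asIdeal := by
      rw [← spl_restrict_smul_under, hw'a]
      exact MulAction.mem_stabilizer_iff.mp hτ
    have : IsGalois F L := IsGalois.tower_top_of_isGalois K F L
    have l1 : w'.asIdeal.LiesOver w.asIdeal := ⟨hw'a.symm⟩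
    have l2 : (g • w'.asIdeal).LiesOver w.asIdeal := ⟨hgu.symm⟩
    obtain ⟨h, hh⟩ := Ideal.exists_smul_eq_of_isGaloisGroup w.asIdeal (g • w'.asIdeal) w'.asIdeal
      Gal(L/F)
    rw [← spl_restrictScalars_smul K F L h, ← mul_smul] at hh
    have h4 := hv w' hw'K (MulAction.mem_stabilizer_iff.mpr hh)
    have h5 := spl_restrictScalars_mem_ker K F L h
    have h6 := (Subgroup.mul_mem_cancel_left _ h5).mp h4
    exact MonoidHom.mem_ker.mp h6

end tower

variable (K : Type*) [Field K] [NumberField K] (L : Type*) [Field L] [NumberField L] [Algebra K L]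
  [IsGalois K L]

theorem spl_split_fixedField_iff (H : Subgroup Gal(L/K)) [H.Normal] (v : Pl K) :
    v ∈ Split K (IntermediateField.fixedField H) ↔ v ∈ DecLe K L H := by
  rw [spl_split_iff_decLe_ker K (IntermediateField.fixedField H) L v,
    IntermediateField.restrictNormalHom_ker, IntermediateField.fixingSubgroup_fixedField]

theorem spl_finrank_fixedField (H : Subgroup Gal(L/K)) :
    (Module.finrank K (IntermediateField.fixedField H) : ℝ) =
      (Nat.card Gal(L/K) : ℝ) / (Nat.card H : ℝ) := by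
  have h1 := IntermediateField.finrank_fixedField_eq_card H
  have h2 := Module.finrank_mul_finrank K (IntermediateField.fixedField H) L
  rw [h1, ← IsGalois.card_aut_eq_finrank K L] at h2
  have h3 : (Nat.card H : ℝ) ≠ 0 := by exact_mod_cast Nat.card_pos.ne'
  rw [eq_div_iff h3]
  exact_mod_cast h2

end Claimed.Agent.R239.SPL
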