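/-
R239 / SPL : the set of degree one primes of `K` which split completely in a Galois extension
`F / K` has mass `(1/[F:K]) log (1/(s-1)) + O(1)`.
-/
import Claimed.Agent.R239.SPL.SplitAlg

set_option autoImplicit false

namespace Claimed.Agent.R239.SPL

open IsDedekindDomain NumberField

section gen

variable (K : Type*) [Field K] [NumberField K]

theorem spl_wt_le_one {s : ℝ} (hs : 0 < s) (v : Pl K) : wt s v ≤ 1 := (spl_wt_lt_one hs v).le

/-- removing a finite set does not change the asymptotics -/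
theorem spl_asymp_mass_of_diff_finite {S T : Set (Pl K)} {δ : ℝ} (hTS : T ⊆ S)
    (hfin : (S \ T).Finite) (h : Asymp (mass S) δ) : Asymp (mass T) δ := by
  refine spl_asymp_of_bdd_sub h ((S \ T).ncard : ℝ) (fun s h1 _ => ?_)
  have hw := spl_summable_wt K h1
  have hd := spl_gmass_diff (w := wt s) hw hTS
  have h0 : 0 ≤ gmass (wt s) (S \ T) := spl_gmass_nonneg (fun v => (spl_wt_pos s v).le) _
  have h2 := spl_gmass_finite_le (w := wt s) hfin (fun v => spl_wt_le_one K (by linarith) v)
  unfold mass
  rw [abs_le]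
  constructor <;> linarith

/-- a set with positive density is infinite -/
theorem spl_infinite_of_asymp {S : Set (Pl K)} {δ : ℝ} (hδ : 0 < δ) (h : Asymp (mass S) δ) :
    S.Infinite := by
  intro hfin
  obtain ⟨s, h1, _, h3⟩ := spl_asymp_unbounded h hδ (S.ncard : ℝ)
  have h2 := spl_gmass_finite_le (w := wt s) hfin (fun v => spl_wt_le_one K (by linarith) v)
  unfold mass at h3
  linarith

end gen

variable (K : Type*) [Field K] [NumberField K] (F : Type*) [Field F] [NumberField F] [Algebra K F]
  [IsGalois K F]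

theorem spl_preimage_split_deg1 :
    (fun w : Pl F => w.under (𝓞 K)) ⁻¹' (Split K F ∩ deg1 K) =
      deg1 F ∩ {w : Pl F | w.under (𝓞 K) ∈ Unr K F} := by
  ext w
  constructor
  · rintro ⟨h1, h2⟩
    refine ⟨?_, spl_split_subset_unr K F h1⟩
    change (nrm w).Prime
    rw [spl_nrm_of_split K F _ h1 w rfl]
    exact h2
  · rintro ⟨h1, h2⟩
    refine ⟨spl_split_of_deg1_unr K F w h1 h2, ?_⟩
    change (nrm (w.under (𝓞 K))).Prime
    rw [spl_nrm_under_of_deg1 K F w h1]
    exact h1

theorem spl_mass_fibre_eq {s : ℝ} (hs : 1 < s) :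
    mass (deg1 F ∩ {w : Pl F | w.under (𝓞 K) ∈ Unr K F}) s =
      (Module.finrank K F : ℝ) * mass (Split K F ∩ deg1 K) s := by
  rw [← spl_preimage_split_deg1]
  unfold mass
  rw [← spl_gmass_fibre (fun w : Pl F => w.under (𝓞 K)) (wt s) (fun v => (spl_wt_pos s v).le)
    (spl_summable_wt K hs) (Split K F ∩ deg1 K) (Module.finrank K F)
    (fun v _ => spl_fibre_finite K F v) (fun v hv => spl_fibre_card_of_split K F v hv.1)]
  refine spl_gmass_congr (fun w hw => ?_)
  unfold wt
  rw [spl_nrm_of_split K F _ hw.1 w rfl]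

/-- `deg1 F` minus the finite set of primes above the ramified primes. -/
theorem spl_mass_split_asymp :
    Asymp (mass (Split K F ∩ deg1 K)) (1 / (Module.finrank K F : ℝ)) := by
  have hd : (0 : ℝ) < Module.finrank K F := by exact_mod_cast Module.finrank_pos
  have hfin : (deg1 F \ (deg1 F ∩ {w : Pl F | w.under (𝓞 K) ∈ Unr K F})).Finite := by
    have h1 : (⋃ v ∈ (Unr K F)ᶜ, {w : Pl F | w.under (𝓞 K) = v}).Finite :=
      (spl_unr_cofinite K F).biUnion (fun v _ => spl_fibre_finite K F v)
    refine h1.subset ?_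
    rintro w ⟨hw1, hw2⟩
    have hw3 : w.under (𝓞 K) ∉ Unr K F := fun h => hw2 ⟨hw1, h⟩
    exact Set.mem_biUnion (show w.under (𝓞 K) ∈ (Unr K F)ᶜ from hw3) rfl
  have h1 := spl_asymp_mass_of_diff_finite F Set.inter_subset_left hfin (spl_mass_deg1_asymp F)
  have h2 := spl_asymp_const_mul (1 / (Module.finrank K F : ℝ)) h1
  rw [mul_one] at h2
  refine spl_asymp_congr (fun s hs1 _ => ?_) h2
  rw [spl_mass_fibre_eq K F hs1]
  field_simp

theorem spl_split_infinite : (Split K F ∩ deg1 K).Infinite := by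
  have hd : (0 : ℝ) < Module.finrank K F := by exact_mod_cast Module.finrank_pos
  exact spl_infinite_of_asymp K (by positivity) (spl_mass_split_asymp K F)

/-- OUTPUT SPL1. -/
theorem spl_trivial_of_almost_split (h : (deg1 K \ Split K F).Finite) :
    Module.finrank K F = 1 := by
  have hd : (0 : ℝ) < Module.finrank K F := by exact_mod_cast Module.finrank_pos
  have hfin : (deg1 K \ (Split K F ∩ deg1 K)).Finite := by
    refine h.subset ?_
    rintro v ⟨h1, h2⟩
    exact ⟨h1, fun h3 => h2 ⟨h3, h1⟩⟩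
  have h1 := spl_asymp_mass_of_diff_finite K Set.inter_subset_right hfin (spl_mass_deg1_asymp K)
  have h2 := spl_asymp_unique h1 (spl_mass_split_asymp K F)
  have h3 : (Module.finrank K F : ℝ) = 1 := by
    field_simp at h2
    linarith
  exact_mod_cast h3

end Claimed.Agent.R239.SPL
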