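/-
R239 / SPL : Frobenius' density theorem for abelian extensions `L / K`.
-/
import Claimed.Agent.R239.SPL.SplitDens
import Claimed.Agent.R239.SPL.DecSub

set_option autoImplicit false
set_option linter.unusedSectionVars false

namespace Claimed.Agent.R239.SPL

open IsDedekindDomain NumberField
open scoped Pointwise

section grp

variable {G : Type*} [Group G] [Finite G]

/-- `|H| = ∑_{H' ≤ H} #{g | ⟨g⟩ = H'}`, with the term `H' = H` separated. -/
theorem spl_card_eq_sum_gen (H : Subgroup G) (t : Finset (Subgroup G))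
    (ht : ∀ H' : Subgroup G, H' ∈ t ↔ H' < H) :
    (Nat.card H : ℝ) = (Nat.card {g : G // Subgroup.zpowers g = H} : ℝ) +
      ∑ H' ∈ t, (Nat.card {g : G // Subgroup.zpowers g = H'} : ℝ) := by
  classical
  have : Fintype G := Fintype.ofFinite G
  have hHt : H ∉ t := fun h => lt_irrefl _ ((ht H).mp h)
  have hc : ∀ H' : Subgroup G, Nat.card {g : G // Subgroup.zpowers g = H'} =
      (Finset.univ.filter (fun g : G => Subgroup.zpowers g = H')).card := by
    intro H'
    rw [Nat.card_eq_fintype_card, Fintype.card_subtype]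
  have hH : Nat.card H = (Finset.univ.filter (fun g : G => g ∈ H)).card := by
    rw [Nat.card_eq_fintype_card]
    exact Fintype.card_subtype _
  have key := Finset.card_eq_sum_card_fiberwise (s := Finset.univ.filter (fun g : G => g ∈ H))
    (t := insert H t) (f := fun g : G => Subgroup.zpowers g) (by
      intro g hg
      have hg' : g ∈ H := by simpa using hg
      have hle : Subgroup.zpowers g ≤ H := (Subgroup.zpowers_le).mpr hg'
      rcases hle.eq_or_lt with h | h
      · simp [h]
      · simp [(ht _).mpr h])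
  have hfil : ∀ H' ∈ insert H t,
      ((Finset.univ.filter (fun g : G => g ∈ H)).filter (fun g => Subgroup.zpowers g = H')).card =
        (Finset.univ.filter (fun g : G => Subgroup.zpowers g = H')).card := by
    intro H' hH'
    have hle : H' ≤ H := by
      rcases Finset.mem_insert.mp hH' with rfl | h
      · exact le_rfl
      · exact ((ht _).mp h).le
    congr 1
    ext g
    simp only [Finset.mem_filter, Finset.mem_univ, true_and, and_iff_right_iff_imp]
    intro hg
    exact hle (hg ▸ Subgroup.mem_zpowers g)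
  rw [Finset.sum_congr rfl hfil, Finset.sum_insert hHt] at key
  rw [hH, key]
  push_cast
  simp_rw [hc]

end grp

variable (K : Type*) [Field K] [NumberField K] (L : Type*) [Field L] [NumberField L] [Algebra K L]
  [IsGalois K L]

theorem spl_map_conj_of_comm {G : Type*} [Group G] (hc : ∀ a b : G, a * b = b * a) (σ : G)
    (S : Subgroup G) : S.map (MulAut.conj σ).toMonoidHom = S := by
  ext x
  simp only [Subgroup.mem_map, MulEquiv.coe_toMonoidHom, MulAut.conj_apply]
  constructor
  · rintro ⟨y, hy, rfl⟩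
    rwa [hc σ y, mul_assoc, mul_inv_cancel, mul_one]
  · intro hx
    exact ⟨x, hx, by rw [hc σ x, mul_assoc, mul_inv_cancel, mul_one]⟩

/-- in an abelian extension the decomposition group depends only on `v`. -/
theorem spl_exists_decEq (hc : ∀ a b : Gal(L/K), a * b = b * a) (v : Pl K) :
    ∃ H : Subgroup Gal(L/K), v ∈ DecEq K L H := by
  obtain ⟨w0, hw0⟩ := spl_fibre_nonempty K L v
  refine ⟨MulAction.stabilizer Gal(L/K) w0.asIdeal, fun w hw => ?_⟩
  obtain ⟨σ, hσ⟩ := spl_exists_smul K L w0 w (by rw [hw0, hw])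
  rw [← hσ, spl_stabilizer_smul, spl_map_conj_of_comm hc]

theorem spl_decEq_unique (v : Pl K) {H H' : Subgroup Gal(L/K)} (h : v ∈ DecEq K L H)
    (h' : v ∈ DecEq K L H') : H = H' := by
  obtain ⟨w0, hw0⟩ := spl_fibre_nonempty K L v
  rw [← h w0 hw0, ← h' w0 hw0]

theorem spl_mass_decLe_asymp (hc : ∀ a b : Gal(L/K), a * b = b * a) (H : Subgroup Gal(L/K)) :
    Asymp (mass (DecLe K L H ∩ deg1 K)) ((Nat.card H : ℝ) / (Nat.card Gal(L/K) : ℝ)) := by
  have hn : H.Normal := ⟨fun n hn g => by rwa [hc g n, mul_assoc, mul_inv_cancel, mul_one]⟩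
  have h1 := spl_mass_split_asymp K (IntermediateField.fixedField H)
  have h2 : Split K (IntermediateField.fixedField H) = DecLe K L H := by
    ext v
    exact spl_split_fixedField_iff K L H v
  rw [h2, spl_finrank_fixedField, one_div_div] at h1
  exact h1

theorem spl_decLe_eq_union (hc : ∀ a b : Gal(L/K), a * b = b * a) (H : Subgroup Gal(L/K))
    (t : Finset (Subgroup Gal(L/K))) (ht : ∀ H' : Subgroup Gal(L/K), H' ∈ t ↔ H' < H) :
    DecLe K L H ∩ deg1 K =
      (DecEq K L H ∩ deg1 K) ∪ ⋃ H' ∈ t, (DecEq K L H' ∩ deg1 K) := by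
  ext v
  simp only [Set.mem_inter_iff, Set.mem_union, Set.mem_iUnion, exists_prop]
  constructor
  · rintro ⟨h1, h2⟩
    obtain ⟨H', hH'⟩ := spl_exists_decEq K L hc v
    obtain ⟨w0, hw0⟩ := spl_fibre_nonempty K L v
    have hle : H' ≤ H := by
      rw [← hH' w0 hw0]
      exact h1 w0 hw0
    rcases hle.eq_or_lt with h | h
    · left
      exact ⟨h ▸ hH', h2⟩
    · right
      exact ⟨H', (ht _).mpr h, hH', h2⟩
  · rintro (⟨h1, h2⟩ | ⟨H', h0, h1, h2⟩)
    · exact ⟨fun w hw => (h1 w hw).le, h2⟩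
    · exact ⟨fun w hw => (h1 w hw).le.trans ((ht _).mp h0).le, h2⟩

/-- Strong induction on `H`:  `DecLe H = ⨆ disjoint_{H' ≤ H} DecEq H'` and
`card H = ∑_{H' ≤ H} card {g | zpowers g = H'}`. -/
theorem spl_mass_decEq_asymp (hc : ∀ a b : Gal(L/K), a * b = b * a) (H : Subgroup Gal(L/K)) :
    Asymp (mass (DecEq K L H ∩ deg1 K))
      ((Nat.card {g : Gal(L/K) // Subgroup.zpowers g = H} : ℝ) / (Nat.card Gal(L/K) : ℝ)) := by
  classical
  induction H using WellFoundedLT.induction with
  | ind H ih =>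
    have : Fintype (Subgroup Gal(L/K)) := Fintype.ofFinite _
    set t : Finset (Subgroup Gal(L/K)) := Finset.univ.filter (fun H' => H' < H) with htdef
    have ht : ∀ H' : Subgroup Gal(L/K), H' ∈ t ↔ H' < H := by
      intro H'
      simp [htdef]
    have hsum := spl_asymp_sum t (fun H' => mass (DecEq K L H' ∩ deg1 K))
      (fun H' => (Nat.card {g : Gal(L/K) // Subgroup.zpowers g = H'} : ℝ) /
        (Nat.card Gal(L/K) : ℝ)) (fun H' hH' => ih H' ((ht H').mp hH'))
    have hsub := spl_asymp_sub (spl_mass_decLe_asymp K L hc H) hsum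
    have hval : (Nat.card H : ℝ) / (Nat.card Gal(L/K) : ℝ) -
        ∑ H' ∈ t, (Nat.card {g : Gal(L/K) // Subgroup.zpowers g = H'} : ℝ) /
          (Nat.card Gal(L/K) : ℝ) =
        (Nat.card {g : Gal(L/K) // Subgroup.zpowers g = H} : ℝ) / (Nat.card Gal(L/K) : ℝ) := by
      rw [spl_card_eq_sum_gen H t ht, ← Finset.sum_div]
      ring
    rw [hval] at hsub
    refine spl_asymp_congr (fun s h1 _ => ?_) hsub
    have hw := spl_summable_wt K h1
    have hdisj : ∀ H1 H2 : Subgroup Gal(L/K), H1 ≠ H2 →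
        Disjoint (DecEq K L H1 ∩ deg1 K) (DecEq K L H2 ∩ deg1 K) := by
      intro H1 H2 hne
      rw [Set.disjoint_left]
      rintro v ⟨h1, _⟩ ⟨h2, _⟩
      exact hne (spl_decEq_unique K L v h1 h2)
    unfold mass
    rw [spl_decLe_eq_union K L hc H t ht, spl_gmass_union hw, spl_gmass_biUnion t _ hw]
    · ring
    · intro H1 _ H2 _ hne
      exact hdisj H1 H2 hne
    · rw [Set.disjoint_iUnion₂_right]
      intro H' hH'
      exact hdisj H H' ((ht H').mp hH').ne'

/-- OUTPUT: infinitely many inert degree one primes in a cyclic extension. -/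
theorem spl_inert_infinite [IsCyclic Gal(L/K)] :
    (DecEq K L ⊤ ∩ deg1 K ∩ Unr K L).Infinite := by
  have hc : ∀ a b : Gal(L/K), a * b = b * a := by
    intro a b
    exact (IsCyclic.commGroup (α := Gal(L/K))).mul_comm a b
  have h1 := spl_mass_decEq_asymp K L hc ⊤
  obtain ⟨g, hg⟩ := IsCyclic.exists_generator (α := Gal(L/K))
  have hgen : Subgroup.zpowers g = ⊤ := (Subgroup.eq_top_iff' _).mpr hg
  have hpos : 0 < Nat.card {g : Gal(L/K) // Subgroup.zpowers g = ⊤} := by
    have : Nonempty {g : Gal(L/K) // Subgroup.zpowers g = ⊤} := ⟨⟨g, hgen⟩⟩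
    exact Nat.card_pos
  have hG : 0 < Nat.card Gal(L/K) := Nat.card_pos
  have hδ : (0 : ℝ) < (Nat.card {g : Gal(L/K) // Subgroup.zpowers g = ⊤} : ℝ) /
      (Nat.card Gal(L/K) : ℝ) := div_pos (by exact_mod_cast hpos) (by exact_mod_cast hG)
  have hfin : ((DecEq K L ⊤ ∩ deg1 K) \ (DecEq K L ⊤ ∩ deg1 K ∩ Unr K L)).Finite := by
    refine (spl_unr_cofinite K L).subset ?_
    rintro v ⟨h2, h3⟩ h4
    exact h3 ⟨h2, h4⟩
  exact spl_infinite_of_asymp K hδ
    (spl_asymp_mass_of_diff_finite K Set.inter_subset_left hfin h1)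

end Claimed.Agent.R239.SPL
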