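/-
R239 / SPL : OUTPUT I6 (replaces Chebotarev in Prop 4.3 / Thm 4.4).
-/
import Claimed.Agent.R239.SPL.Frob

set_option autoImplicit false
set_option linter.unusedSectionVars false

namespace Claimed.Agent.R239.SPL

open IsDedekindDomain NumberField
open scoped Pointwise

section tower

variable (K₀ : Type*) [Field K₀] [NumberField K₀] (K : Type*) [Field K] [NumberField K]
  [Algebra K₀ K] (L : Type*) [Field L] [NumberField L] [Algebra K₀ L] [Algebra K L]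
  [IsScalarTower K₀ K L] [IsGalois K₀ L]

/-- `K₀ ⊆ K ⊆ L`, `C` = image of `Gal(L/K)` in `Gal(L/K₀)`.  If `w` is a prime of `L` which is
unramified over `K₀`, inert over `K`, and of degree one over ... `K`, then `D_w(L/K₀) = C`. -/
theorem spl_stabilizer_eq_of_inert (C : Subgroup Gal(L/K₀))
    (hC1 : ∀ c ∈ C, ∃ h : Gal(L/K), (AlgEquiv.restrictScalars K₀ h : Gal(L/K₀)) = c)
    (hC2 : Nat.card C = Nat.card Gal(L/K))
    (w : Pl L) (hv1 : w.under (𝓞 K) ∈ deg1 K) (hv2 : w.under (𝓞 K) ∈ DecEq K L ⊤)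
    (hv3 : w.under (𝓞 K) ∈ Unr K L) (hu : w.under (𝓞 K₀) ∈ Unr K₀ L) :
    MulAction.stabilizer Gal(L/K₀) w.asIdeal = C := by
  have : IsGalois K L := IsGalois.tower_top_of_isGalois K₀ K L
  have hle : C ≤ MulAction.stabilizer Gal(L/K₀) w.asIdeal := by
    intro c hc
    obtain ⟨h, rfl⟩ := hC1 c hc
    rw [MulAction.mem_stabilizer_iff, spl_restrictScalars_smul]
    have : h ∈ MulAction.stabilizer Gal(L/K) w.asIdeal := by
      rw [hv2 w rfl]
      exact Subgroup.mem_top h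
    exact MulAction.mem_stabilizer_iff.mp this
  have c1 := spl_card_stabilizer K₀ L w
  rw [hu w rfl, Subgroup.card_bot, one_mul] at c1
  have c2 := spl_card_stabilizer K L w
  rw [hv3 w rfl, hv2 w rfl, Subgroup.card_bot, one_mul, Subgroup.card_top] at c2
  have c3 := Ideal.inertiaDeg_tower (R := 𝓞 K₀) (w.under (𝓞 K)).asIdeal w.asIdeal
  rw [spl_inertiaDeg_of_deg1 K₀ K _ hv1, one_mul] at c3
  symm
  apply Subgroup.eq_of_le_of_card_ge hle
  rw [c1, c3, ← c2, hC2]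

end tower

theorem spl_nrm_fibre_finite (K : Type*) [Field K] [NumberField K] (n : ℕ) :
    {v : Pl K | nrm v = n}.Finite := by
  have h := Ideal.finite_setOfPred_absNorm_eq (S := 𝓞 K) n
  refine Set.Finite.of_injOn (f := fun v : Pl K => v.asIdeal) ?_ (spl_asIdeal_injective K).injOn h
  intro v hv
  exact hv

theorem spl_nrm_mem (K : Type*) [Field K] [NumberField K] (v : Pl K) :
    ((nrm v : ℕ) : 𝓞 K) ∈ v.asIdeal := Ideal.absNorm_mem v.asIdeal

/-- GENERAL FORM of I6 (any base field `K₀`): for a cyclic subgroup `C` of `Gal(L/K₀)` there are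
infinitely many degree one primes `v` of `K₀` having a prime `w` of `L` above them with trivial
inertia group and decomposition group equal to `C`. -/
theorem spl_exists_decomp_eq_rel (K₀ : Type*) [Field K₀] [NumberField K₀]
    (L : Type*) [Field L] [NumberField L] [Algebra K₀ L] [IsGalois K₀ L]
    (C : Subgroup Gal(L/K₀)) [IsCyclic C] :
    {v : Pl K₀ | v ∈ deg1 K₀ ∧ ∃ w : Pl L, w.under (𝓞 K₀) = v ∧
      w.asIdeal.toAddSubgroup.inertia Gal(L/K₀) = ⊥ ∧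
      MulAction.stabilizer Gal(L/K₀) w.asIdeal = C}.Infinite := by
  set K := IntermediateField.fixedField C with hK
  let e : C ≃* Gal(L/K) := IntermediateField.subgroupEquivAlgEquiv C
  have hcyc : IsCyclic Gal(L/K) := isCyclic_of_surjective e e.surjective
  have hC1 : ∀ c ∈ C, ∃ h : Gal(L/K), (AlgEquiv.restrictScalars K₀ h : Gal(L/K₀)) = c := by
    intro c hc
    exact ⟨e ⟨c, hc⟩, by ext x; rfl⟩
  have hC2 : Nat.card C = Nat.card Gal(L/K) := Nat.card_congr e.toEquiv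
  have hinf := spl_inert_infinite K L
  -- remove the primes of `K` above the primes of `K₀` which ramify in `L`
  have hbad : (⋃ u ∈ (Unr K₀ L)ᶜ, {v : Pl K | v.under (𝓞 K₀) = u}).Finite :=
    (spl_unr_cofinite K₀ L).biUnion (fun u _ => spl_fibre_finite K₀ K u)
  have hinf2 := hinf.sdiff hbad
  -- push down to `K₀`
  have himg : ((fun v : Pl K => v.under (𝓞 K₀)) ''
      ((DecEq K L ⊤ ∩ deg1 K ∩ Unr K L) \
        ⋃ u ∈ (Unr K₀ L)ᶜ, {v : Pl K | v.under (𝓞 K₀) = u})).Infinite := by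
    intro hfin
    apply hinf2
    refine Set.Finite.of_finite_fibers (fun v : Pl K => v.under (𝓞 K₀)) hfin (fun u _ => ?_)
    exact (spl_fibre_finite K₀ K u).subset (fun v hv => hv.2)
  refine himg.mono ?_
  rintro _ ⟨v, ⟨⟨⟨h1, h2⟩, h3⟩, h4⟩, rfl⟩
  have h5 : v.under (𝓞 K₀) ∈ Unr K₀ L := by
    by_contra hcon
    exact h4 (Set.mem_biUnion (show v.under (𝓞 K₀) ∈ (Unr K₀ L)ᶜ from hcon) rfl)
  obtain ⟨w, hw⟩ := spl_fibre_nonempty K L v
  have hw0 : w.under (𝓞 K₀) = v.under (𝓞 K₀) := by rw [← spl_under_under K₀ K L, hw]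
  refine ⟨?_, w, hw0, h5 w hw0, ?_⟩
  · change (nrm (v.under (𝓞 K₀))).Prime
    rw [spl_nrm_under_of_deg1 K₀ K v h2]
    exact h2
  · exact spl_stabilizer_eq_of_inert K₀ K L C hC1 hC2 w (hw ▸ h2) (hw ▸ h1) (hw ▸ h3) (hw0 ▸ h5)

/-- OUTPUT I6. -/
theorem spl_exists_decomp_eq (L : Type*) [Field L] [NumberField L] [IsGalois ℚ L]
    (C : Subgroup Gal(L/ℚ)) [IsCyclic C] :
    {q : ℕ | q.Prime ∧ ∃ w : Pl L, (q : 𝓞 L) ∈ w.asIdeal ∧
      w.asIdeal.toAddSubgroup.inertia Gal(L/ℚ) = ⊥ ∧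
      MulAction.stabilizer Gal(L/ℚ) w.asIdeal = C}.Infinite := by
  have hinf := spl_exists_decomp_eq_rel ℚ L C
  have himg : ((fun v : Pl ℚ => nrm v) '' {v : Pl ℚ | v ∈ deg1 ℚ ∧ ∃ w : Pl L,
      w.under (𝓞 ℚ) = v ∧ w.asIdeal.toAddSubgroup.inertia Gal(L/ℚ) = ⊥ ∧
      MulAction.stabilizer Gal(L/ℚ) w.asIdeal = C}).Infinite := by
    intro hfin
    apply hinf
    refine Set.Finite.of_finite_fibers (fun v : Pl ℚ => nrm v) hfin (fun n _ => ?_)
    exact (spl_nrm_fibre_finite ℚ n).subset (fun v hv => hv.2)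
  refine himg.mono ?_
  rintro _ ⟨v, ⟨h1, w, hw, h2, h3⟩, rfl⟩
  refine ⟨h1, w, ?_, h2, h3⟩
  have hm := spl_nrm_mem ℚ v
  rw [← hw] at hm
  have hm2 : algebraMap (𝓞 ℚ) (𝓞 L) ((nrm (w.under (𝓞 ℚ)) : ℕ) : 𝓞 ℚ) ∈ w.asIdeal := hm
  rw [hw] at hm2
  simpa using hm2

end Claimed.Agent.R239.SPL
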