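/-
R239 / SPL : BRIDGE from the abstract number field statement `spl_exists_decomp_eq_rel` to the vocabulary of
`R239/Defs.lean` (open subgroups of `Gal(E/F)`, primes of `𝓞 E`): proof of `spl_cyclic` of `Iface/SPL.lean`.
-/
import Claimed.Agent.R239.SPL.I6
import Claimed.Agent.R239.Tame.HilProf
import Claimed.Agent.R239.Glue.BaseChange

set_option autoImplicit false
set_option linter.unusedSectionVars false

namespace Claimed.Agent.R239.SPL

open IsDedekindDomain NumberField
open scoped Pointwise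

section tower

variable {K : Type*} [Field K] {E : Type*} [Field E] [Algebra K E]
  (L : IntermediateField K E) [Normal K L]

theorem spl_br_algebraMap_restrict_smul (g : Gal(E/K)) (x : 𝓞 L) :
    algebraMap (𝓞 L) (𝓞 E) ((AlgEquiv.restrictNormalHom L g) • x) =
      g • algebraMap (𝓞 L) (𝓞 E) x := by
  apply RingOfIntegers.ext
  exact AlgEquiv.restrictNormal_commutes g L (x : L)

theorem spl_br_restrict_smul_under (g : Gal(E/K)) (P : Ideal (𝓞 E)) :
    (AlgEquiv.restrictNormalHom L g) • (P.under (𝓞 L)) = (g • P).under (𝓞 L) := by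
  ext x
  rw [Ideal.mem_pointwise_smul_iff_inv_smul_mem, Ideal.mem_under, Ideal.mem_under,
    Ideal.mem_pointwise_smul_iff_inv_smul_mem, ← map_inv, spl_br_algebraMap_restrict_smul]

theorem spl_br_restrict_mem_stabilizer {g : Gal(E/K)} {P : Ideal (𝓞 E)} (hg : g • P = P) :
    AlgEquiv.restrictNormalHom L g ∈ MulAction.stabilizer Gal(L/K) (P.under (𝓞 L)) := by
  rw [MulAction.mem_stabilizer_iff, spl_br_restrict_smul_under, hg]

theorem spl_br_restrict_mem_inertia {g : Gal(E/K)} {P : Ideal (𝓞 E)} (hg : g ∈ P.inertia Gal(E/K)) :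
    AlgEquiv.restrictNormalHom L g ∈ (P.under (𝓞 L)).toAddSubgroup.inertia Gal(L/K) := by
  intro x
  change (AlgEquiv.restrictNormalHom L g) • x - x ∈ P.under (𝓞 L)
  rw [Ideal.mem_under, map_sub, spl_br_algebraMap_restrict_smul]
  exact hg _

end tower

section top

variable {K : Type} [Field K] [NumberField K] {E : Type} [Field E] [Algebra K E] [IsGalois K E]

theorem spl_br_ker (V : Subgroup Gal(E/K)) (hV : IsOpen (V : Set Gal(E/K))) [V.Normal]
    [Normal K (fld V)] : (AlgEquiv.restrictNormalHom (F := K) (K₁ := E) (fld V)).ker = V := by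
  rw [IntermediateField.restrictNormalHom_ker]
  exact hilb_fixingSubgroup_fld V (hilb_isClosed_of_isOpen V hV)

/-- the statement over the base field `K` (`U = ⊤`), `V` normal. -/
theorem spl_br_top (V : Subgroup Gal(E/K)) (hV : IsOpen (V : Set Gal(E/K))) [V.Normal]
    (γ : Gal(E/K)) :
    {q : ℕ | q.Prime ∧ ∃ P : Ideal (𝓞 E), P.IsMaximal ∧ (q : 𝓞 E) ∈ P ∧
      Nat.card (𝓞 K ⧸ P.under (𝓞 K)) = q ∧ P.inertia Gal(E/K) ≤ V ∧
      (∀ g : Gal(E/K), g • P = P → g ∈ Subgroup.zpowers γ ⊔ V) ∧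
      ∃ h ∈ V, (h * γ) • P = P}.Infinite := by
  have hnf : NumberField (fld V) := hilb_numberField V hV
  have hgal : IsGalois K (fld V) := IsGalois.of_fixedField_normal_subgroup V
  have hker := spl_br_ker V hV
  set L := fld V with hL
  set γL : Gal(L/K) := AlgEquiv.restrictNormalHom L γ with hγL
  have hinf := spl_exists_decomp_eq_rel K L (Subgroup.zpowers γL)
  have himg : ((fun v : Pl K => nrm v) '' {v : Pl K | v ∈ deg1 K ∧ ∃ w : Pl L,
      w.under (𝓞 K) = v ∧ w.asIdeal.toAddSubgroup.inertia Gal(L/K) = ⊥ ∧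
      MulAction.stabilizer Gal(L/K) w.asIdeal = Subgroup.zpowers γL}).Infinite := by
    intro hfin
    apply hinf
    refine Set.Finite.of_finite_fibers (fun v : Pl K => nrm v) hfin (fun n _ => ?_)
    exact (spl_nrm_fibre_finite K n).subset (fun v hv => hv.2)
  refine himg.mono ?_
  rintro _ ⟨v, ⟨h1, w, hw, h2, h3⟩, rfl⟩
  have hwm : w.asIdeal.IsMaximal := w.isMaximal
  obtain ⟨P, hPm, hP⟩ := Ideal.exists_maximal_ideal_liesOver_of_isIntegral (S := 𝓞 E) w.asIdeal
  have hPw : P.under (𝓞 L) = w.asIdeal := hP.over.symm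
  have hPv : P.under (𝓞 K) = v.asIdeal := by
    rw [← Ideal.under_under (B := 𝓞 L), hPw, ← hw]
    rfl
  refine ⟨h1, P, hPm, ?_, ?_, ?_, ?_, ?_⟩
  · have hm : ((nrm v : ℕ) : 𝓞 K) ∈ P.under (𝓞 K) := hPv ▸ spl_nrm_mem K v
    rw [Ideal.mem_under] at hm
    simpa using hm
  · rw [hPv]
    change Nat.card (𝓞 K ⧸ v.asIdeal) = Ideal.absNorm v.asIdeal
    rw [Ideal.absNorm_apply, Submodule.cardQuot_apply]
  · intro g hg
    have h4 := spl_br_restrict_mem_inertia L hg
    rw [hPw, h2, Subgroup.mem_bot] at h4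
    rw [← hker]
    exact MonoidHom.mem_ker.mpr h4
  · intro g hg
    have h4 := spl_br_restrict_mem_stabilizer L hg
    rw [hPw, h3] at h4
    obtain ⟨k, hk⟩ := Subgroup.mem_zpowers_iff.mp h4
    have h5 : (γ ^ k)⁻¹ * g ∈ V := by
      rw [← hker, MonoidHom.mem_ker, map_mul, map_inv, map_zpow, ← hk]
      exact inv_mul_cancel _
    have e : g = γ ^ k * ((γ ^ k)⁻¹ * g) := by group
    rw [e]
    exact mul_mem (Subgroup.mem_sup_left (Subgroup.zpow_mem_zpowers γ k))
      (Subgroup.mem_sup_right h5)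
  · have h4 : γL ∈ MulAction.stabilizer Gal(L/K) w.asIdeal := by
      rw [h3]
      exact Subgroup.mem_zpowers γL
    have h5 : (γ • P).under (𝓞 L) = P.under (𝓞 L) := by
      rw [← spl_br_restrict_smul_under, hPw]
      exact MulAction.mem_stabilizer_iff.mp h4
    have : P.IsPrime := hPm.isPrime
    obtain ⟨h, hh⟩ := hilb_transitive L (γ • P) P h5
    refine ⟨h.restrictScalars K, hilb_restrictScalars_mem V (hilb_isClosed_of_isOpen V hV) h, ?_⟩
    rw [mul_smul]
    exact hh.symm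

end top

section main

variable {F E : Type} [Field F] [NumberField F] [Field E] [Algebra F E] [IsGalois F E]

/-- `spl_cyclic` of `Iface/SPL.lean`. -/
theorem spl_cyclic_main (U V : Subgroup Gal(E/F)) (hV : IsOpen (V : Set Gal(E/F))) (hVU : V ≤ U)
    (hn : ∀ u ∈ U, ∀ v ∈ V, u * v * u⁻¹ ∈ V) (γ : Gal(E/F)) (hγ : γ ∈ U) :
    {q : ℕ | q.Prime ∧ ∃ (P : Ideal (𝓞 E)) (σ : Gal(E/F)), P.IsMaximal ∧ Over P q ∧ normAt U P = q ∧
      UnramIn U V P ∧ IsFrob U P σ ∧ Subgroup.zpowers σ ⊔ V = Subgroup.zpowers γ ⊔ V}.Infinite := by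
  have hU : IsOpen (U : Set Gal(E/F)) := Subgroup.isOpen_mono hVU hV
  have hUc := hilb_isClosed_of_isOpen U hU
  have hnf : NumberField (fld U) := hilb_numberField U hU
  set V' : Subgroup Gal(E/(fld U)) := V.comap (bcR U) with hV'
  have hV'o : IsOpen (V' : Set Gal(E/(fld U))) := hV.preimage (bcR_continuous U)
  have hV'n : V'.Normal := by
    refine ⟨fun n hn' g => ?_⟩
    change bcR U (g * n * g⁻¹) ∈ V
    rw [map_mul, map_mul, map_inv]
    exact hn _ (bcR_mem U hUc g) _ hn'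
  obtain ⟨γ', hγ'⟩ := bcR_surj U hγ
  refine (spl_br_top V' hV'o γ').mono ?_
  rintro q ⟨hq, P, hPm, h1, h2, h3, h4, h', hh', h5⟩
  obtain ⟨σ, hσ⟩ := hilp_exists_frob U hU P
  have hunr : UnramIn U V P := by
    rintro g ⟨hg1, hg2⟩
    obtain ⟨g', rfl⟩ := bcR_surj U hg2
    exact h3 ((bcR_mem_inert_iff U g' P).mp hg1)
  refine ⟨hq, P, σ, hPm, h1, h2, hunr, hσ, ?_⟩
  apply le_antisymm
  · refine sup_le ?_ le_sup_right
    rw [Subgroup.zpowers_le]
    obtain ⟨σ', hσ'⟩ := bcR_surj U hσ.1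
    have h6 : σ' • P = P := by
      have := hilp_frob_mem_decomp hσ
      rw [← hσ', bcR_mem_decomp_iff] at this
      exact MulAction.mem_stabilizer_iff.mp this
    have h7 := h4 σ' h6
    have h8 : (Subgroup.zpowers γ' ⊔ V').map (bcR U) ≤ Subgroup.zpowers γ ⊔ V := by
      rw [Subgroup.map_sup]
      refine sup_le ?_ ?_
      · rw [MonoidHom.map_zpowers, hγ']
        exact le_sup_left
      · exact (Subgroup.map_comap_le _ _).trans le_sup_right
    rw [← hσ']
    exact h8 (Subgroup.mem_map_of_mem _ h7)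
  · refine sup_le ?_ le_sup_right
    rw [Subgroup.zpowers_le]
    have hg : bcR U (h' * γ') ∈ decomp F P ⊓ U :=
      ⟨(bcR_mem_decomp_iff U _ P).mpr (MulAction.mem_stabilizer_iff.mpr h5), bcR_mem U hUc _⟩
    obtain ⟨j, i, v, hi, hv, hgv⟩ := hilp_decomp_factor hV hVU hσ hg
    have e : γ = (bcR U h')⁻¹ * (σ ^ j * i * v) := by
      rw [← hgv, map_mul, hγ']
      group
    rw [e]
    refine mul_mem (inv_mem (Subgroup.mem_sup_right hh')) (mul_mem (mul_mem ?_ ?_) ?_)
    · exact Subgroup.mem_sup_left (pow_mem (Subgroup.mem_zpowers σ) j)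
    · exact Subgroup.mem_sup_right (hunr hi)
    · exact Subgroup.mem_sup_right hv.2

end main

end Claimed.Agent.R239.SPL
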