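/-
R239 / SPL : rational primes splitting completely in a Galois number field `F / ℚ`.
-/
import Claimed.Agent.R239.SPL.SplitDens

set_option autoImplicit false
set_option linter.unusedSectionVars false

namespace Claimed.Agent.R239.SPL

open IsDedekindDomain NumberField
open scoped Pointwise

theorem spl_summable_natw {s : ℝ} (hs : 1 < s) : Summable (fun p : ℕ => (p : ℝ) ^ (-s)) := by
  rw [Real.summable_nat_rpow]
  linarith

section nogal

variable (F : Type*) [Field F] [NumberField F]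

theorem spl_liesOver_span_chr (w : Pl F) : w.asIdeal.LiesOver (Ideal.span {((chr w : ℕ) : ℤ)}) :=
  ⟨spl_span_chr F w⟩

theorem spl_span_isPrime {p : ℕ} (hp : p.Prime) : (Ideal.span {(p : ℤ)}).IsPrime := by
  rw [Ideal.span_singleton_prime (by exact_mod_cast hp.ne_zero)]
  exact Nat.prime_iff_prime_int.mp hp

theorem spl_nrm_eq_chr_pow_inertiaDeg (w : Pl F) : nrm w = chr w ^ (w.asIdeal.inertiaDeg ℤ) := by
  have := spl_liesOver_span_chr F w
  exact (Ideal.pow_inertiaDeg (chr w) w.asIdeal).symm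

theorem spl_chr_eq_nrm_of_deg1 (w : Pl F) (hw : w ∈ deg1 F) :
    chr w = nrm w ∧ w.asIdeal.inertiaDeg ℤ = 1 := by
  have hp : (nrm w).Prime := hw
  exact (Nat.Prime.pow_eq_iff hp).mp (spl_nrm_eq_chr_pow_inertiaDeg F w).symm

/-- the fibre of `chr` over `p` is in bijection with `primesOver`. -/
theorem spl_image_chr_fibre {p : ℕ} (hp : p.Prime) :
    (fun w : Pl F => w.asIdeal) '' {w : Pl F | chr w = p} =
      (Ideal.span {(p : ℤ)}).primesOver (𝓞 F) := by
  ext P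
  constructor
  · rintro ⟨w, hw, rfl⟩
    have hw' : chr w = p := hw
    exact ⟨w.isPrime, hw' ▸ spl_liesOver_span_chr F w⟩
  · rintro ⟨hP1, hP2⟩
    have hpb : Ideal.span {(p : ℤ)} ≠ ⊥ := by simpa using hp.ne_zero
    have hb : P ≠ ⊥ := Ideal.ne_bot_of_mem_primesOver hpb ⟨hP1, hP2⟩
    refine ⟨⟨P, hP1, hb⟩, ?_, rfl⟩
    apply spl_chr_eq_of_mem F _ hp
    change (p : 𝓞 F) ∈ P
    have h1 : (p : ℤ) ∈ P.under ℤ := by
      rw [← hP2.over]
      exact Ideal.mem_span_singleton_self _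
    rw [Ideal.mem_under] at h1
    simpa using h1

theorem spl_chr_fibre_ncard {p : ℕ} (hp : p.Prime) :
    {w : Pl F | chr w = p}.ncard = ((Ideal.span {(p : ℤ)}).primesOver (𝓞 F)).ncard := by
  rw [← spl_image_chr_fibre F hp, Set.ncard_image_of_injective _ (spl_asIdeal_injective F)]

theorem spl_exists_chr_eq {p : ℕ} (hp : p.Prime) : ∃ w : Pl F, chr w = p := by
  have := spl_span_isPrime hp
  have hpm : (Ideal.span {(p : ℤ)}).IsMaximal :=
    this.isMaximal (by simpa using hp.ne_zero)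
  obtain ⟨P, hPm, hP⟩ :=
    Ideal.exists_maximal_ideal_liesOver_of_isIntegral (S := 𝓞 F) (Ideal.span {(p : ℤ)})
  have hmem : P ∈ (Ideal.span {(p : ℤ)}).primesOver (𝓞 F) := ⟨hPm.isPrime, hP⟩
  rw [← spl_image_chr_fibre F hp] at hmem
  obtain ⟨w, hw, _⟩ := hmem
  exact ⟨w, hw⟩

end nogal

variable (F : Type*) [Field F] [NumberField F] [IsGalois ℚ F]

/-- `|D_w| = |I_w| f(w/p)` over `ℤ`. -/
theorem spl_card_stabilizerQ (w : Pl F) :
    Nat.card (MulAction.stabilizer Gal(F/ℚ) w.asIdeal) =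
      Nat.card (w.asIdeal.toAddSubgroup.inertia Gal(F/ℚ)) * w.asIdeal.inertiaDeg ℤ := by
  have := spl_liesOver_span_chr F w
  have := spl_span_isPrime (spl_chr_prime F w)
  have : Fact (chr w).Prime := ⟨spl_chr_prime F w⟩
  exact Ideal.card_stabilizer_eq_card_inertia_mul_finrank (Ideal.span {((chr w : ℕ) : ℤ)})
    w.asIdeal

theorem spl_inertiaDegQ_eq (w w' : Pl F) (h : chr w = chr w') :
    w.asIdeal.inertiaDeg ℤ = w'.asIdeal.inertiaDeg ℤ := by
  have h1 := spl_liesOver_span_chr F w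
  have h2 := spl_liesOver_span_chr F w'
  rw [h] at h1
  rw [← Ideal.inertiaDegIn_eq_inertiaDeg (Ideal.span {((chr w' : ℕ) : ℤ)}) w.asIdeal Gal(F/ℚ),
    ← Ideal.inertiaDegIn_eq_inertiaDeg (Ideal.span {((chr w' : ℕ) : ℤ)}) w'.asIdeal Gal(F/ℚ)]

theorem spl_splitQ_nrm {p : ℕ} (hp : p ∈ SplitQ F) (w : Pl F) (hw : (p : 𝓞 F) ∈ w.asIdeal) :
    nrm w = p := by
  have h := spl_card_stabilizerQ F w
  rw [hp.2 w hw, Subgroup.card_bot] at h
  have hf : w.asIdeal.inertiaDeg ℤ = 1 := Nat.eq_one_of_mul_eq_one_left h.symm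
  rw [spl_nrm_eq_chr_pow_inertiaDeg, hf, pow_one]
  exact spl_chr_eq_of_mem F w hp.1 hw

theorem spl_splitQ_fibre_eq {p : ℕ} (hp : p ∈ SplitQ F) :
    {w : Pl F | nrm w = p} = {w : Pl F | chr w = p} := by
  ext w
  constructor
  · intro hw
    have hw' : nrm w = p := hw
    exact spl_chr_eq_of_mem F w hp.1 (hw' ▸ Ideal.absNorm_mem w.asIdeal)
  · intro hw
    have hw' : chr w = p := hw
    exact spl_splitQ_nrm F hp w (hw' ▸ spl_chr_mem F w)

theorem spl_splitQ_fibre {p : ℕ} (hp : p ∈ SplitQ F) :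
    {w : Pl F | nrm w = p}.Finite ∧ {w : Pl F | nrm w = p}.ncard = Module.finrank ℚ F := by
  rw [spl_splitQ_fibre_eq F hp]
  refine ⟨(spl_chr_fibre F p).1, ?_⟩
  obtain ⟨w, hw⟩ := spl_exists_chr_eq F hp.1
  have := spl_span_isPrime hp.1
  have : Fact p.Prime := ⟨hp.1⟩
  have hl : w.asIdeal.LiesOver (Ideal.span {(p : ℤ)}) := hw ▸ spl_liesOver_span_chr F w
  have h1 := Ideal.ncard_primesOver_mul_ramificationIdxIn_mul_inertiaDegIn
    (Ideal.span {(p : ℤ)}) (𝓞 F) Gal(F/ℚ)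
  have h2 := Ideal.card_stabilizer_eq (G := Gal(F/ℚ)) (Ideal.span {(p : ℤ)}) w.asIdeal
  rw [hp.2 w (hw ▸ spl_chr_mem F w), Subgroup.card_bot] at h2
  rw [← h2, mul_one, IsGalois.card_aut_eq_finrank] at h1
  rw [spl_chr_fibre_ncard F hp.1, h1]

/-- primes of `F` with non-trivial inertia group over `ℚ` are finite in number. -/
theorem spl_ramQ_finite :
    {w : Pl F | w.asIdeal.toAddSubgroup.inertia Gal(F/ℚ) ≠ ⊥}.Finite := by
  have h1 : (⋃ v ∈ (Unr ℚ F)ᶜ, {w : Pl F | w.under (𝓞 ℚ) = v}).Finite :=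
    (spl_unr_cofinite ℚ F).biUnion (fun v _ => spl_fibre_finite ℚ F v)
  refine h1.subset ?_
  intro w hw
  have hw3 : w.under (𝓞 ℚ) ∉ Unr ℚ F := fun h => hw (h w rfl)
  exact Set.mem_biUnion (show w.under (𝓞 ℚ) ∈ (Unr ℚ F)ᶜ from hw3) rfl

theorem spl_splitQ_of_deg1 (w : Pl F) (hw : w ∈ deg1 F)
    (hu : ∀ w' : Pl F, chr w' = chr w → w'.asIdeal.toAddSubgroup.inertia Gal(F/ℚ) = ⊥) :
    nrm w ∈ SplitQ F := by
  obtain ⟨h1, h2⟩ := spl_chr_eq_nrm_of_deg1 F w hw
  refine ⟨hw, fun w' hw' => ?_⟩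
  have h3 : chr w' = chr w := by
    rw [h1]
    exact spl_chr_eq_of_mem F w' hw hw'
  have h := spl_card_stabilizerQ F w'
  rw [hu w' h3, Subgroup.card_bot, one_mul, spl_inertiaDegQ_eq F w' w h3, h2] at h
  exact (Subgroup.card_eq_one).mp h

/-- degree one primes whose norm is not in `SplitQ F` are finite in number -/
theorem spl_deg1_diff_finite : (deg1 F \ (fun w : Pl F => nrm w) ⁻¹' (SplitQ F)).Finite := by
  have h1 : (⋃ w ∈ {w : Pl F | w.asIdeal.toAddSubgroup.inertia Gal(F/ℚ) ≠ ⊥},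
      {w' : Pl F | chr w' = chr w}).Finite :=
    (spl_ramQ_finite F).biUnion (fun w _ => (spl_chr_fibre F (chr w)).1)
  refine h1.subset ?_
  rintro w ⟨hw1, hw2⟩
  by_contra hcon
  apply hw2
  refine spl_splitQ_of_deg1 F w hw1 (fun w' hw' => ?_)
  by_contra hne
  exact hcon (Set.mem_biUnion (show w' ∈ {w : Pl F | w.asIdeal.toAddSubgroup.inertia Gal(F/ℚ) ≠ ⊥}
    from hne) hw'.symm)

theorem spl_preimage_splitQ_subset : (fun w : Pl F => nrm w) ⁻¹' (SplitQ F) ⊆ deg1 F :=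
  fun _ hw => hw.1

theorem spl_massQ_fibre_eq {s : ℝ} (hs : 1 < s) :
    mass ((fun w : Pl F => nrm w) ⁻¹' (SplitQ F)) s =
      (Module.finrank ℚ F : ℝ) * massQ (SplitQ F) s :=
  spl_gmass_fibre (fun w : Pl F => nrm w) (fun p : ℕ => (p : ℝ) ^ (-s))
    (fun p => Real.rpow_nonneg (Nat.cast_nonneg p) _) (spl_summable_natw hs) (SplitQ F)
    (Module.finrank ℚ F) (fun _ hp => (spl_splitQ_fibre F hp).1)
    (fun _ hp => (spl_splitQ_fibre F hp).2)

/-- fibres of `nrm : Pl F → ℕ` over `SplitQ F` (`spl_gmass_fibre`) and `spl_mass_deg1_asymp F`. -/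
theorem spl_massQ_splitQ_asymp : Asymp (massQ (SplitQ F)) (1 / (Module.finrank ℚ F : ℝ)) := by
  have hd : (0 : ℝ) < Module.finrank ℚ F := by exact_mod_cast Module.finrank_pos
  have h1 := spl_asymp_mass_of_diff_finite F (spl_preimage_splitQ_subset F)
    (spl_deg1_diff_finite F) (spl_mass_deg1_asymp F)
  have h2 := spl_asymp_const_mul (1 / (Module.finrank ℚ F : ℝ)) h1
  rw [mul_one] at h2
  refine spl_asymp_congr (fun s hs1 _ => ?_) h2
  rw [spl_massQ_fibre_eq F hs1]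
  field_simp

theorem spl_natw_le_one {s : ℝ} (hs : 0 < s) (p : ℕ) : (p : ℝ) ^ (-s) ≤ 1 := by
  rcases Nat.eq_zero_or_pos p with rfl | hp
  · rw [Nat.cast_zero, Real.zero_rpow (by linarith)]
    exact zero_le_one
  · exact Real.rpow_le_one_of_one_le_of_nonpos (by exact_mod_cast hp) (by linarith)

/-- a set of naturals with positive density is infinite -/
theorem spl_infinite_of_asympQ {S : Set ℕ} {δ : ℝ} (hδ : 0 < δ) (h : Asymp (massQ S) δ) :
    S.Infinite := by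
  intro hfin
  obtain ⟨s, h1, _, h3⟩ := spl_asymp_unbounded h hδ (S.ncard : ℝ)
  have h2 := spl_gmass_finite_le (w := fun p : ℕ => (p : ℝ) ^ (-s)) hfin
    (fun p => spl_natw_le_one (by linarith) p)
  unfold massQ at h3
  linarith

/-- OUTPUT SPL3. -/
theorem spl_splitQ_infinite : (SplitQ F).Infinite := by
  have hd : (0 : ℝ) < Module.finrank ℚ F := by exact_mod_cast Module.finrank_pos
  exact spl_infinite_of_asympQ (by positivity) (spl_massQ_splitQ_asymp F)

/-- OUTPUT (union bound): used for Lemma 5.4. -/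
theorem spl_exists_split_not_split {ι : Type*} (t : Finset ι) (E : ι → Type*)
    [∀ i, Field (E i)] [∀ i, NumberField (E i)] [∀ i, IsGalois ℚ (E i)]
    (h : ∑ i ∈ t, 1 / (Module.finrank ℚ (E i) : ℝ) < 1 / (Module.finrank ℚ F : ℝ)) :
    {p : ℕ | p ∈ SplitQ F ∧ ∀ i ∈ t, p ∉ SplitQ (E i)}.Infinite := by
  intro hfin
  set A : Set ℕ := {p : ℕ | p ∈ SplitQ F ∧ ∀ i ∈ t, p ∉ SplitQ (E i)} with hA
  have hsum := spl_asymp_sum t (fun i => massQ (SplitQ (E i)))
    (fun i => 1 / (Module.finrank ℚ (E i) : ℝ)) (fun i _ => spl_massQ_splitQ_asymp (E i))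
  have hsub := spl_asymp_sub (spl_massQ_splitQ_asymp F) hsum
  obtain ⟨s, h1, _, h3⟩ := spl_asymp_unbounded hsub (sub_pos.mpr h) (A.ncard : ℝ)
  have hw := spl_summable_natw h1
  have hw0 : ∀ p : ℕ, 0 ≤ (p : ℝ) ^ (-s) := fun p => Real.rpow_nonneg (Nat.cast_nonneg p) _
  have hcover : SplitQ F ⊆ A ∪ ⋃ i ∈ t, SplitQ (E i) := by
    intro p hp
    by_cases hpA : p ∈ A
    · exact Or.inl hpA
    · right
      simp only [hA, Set.mem_ofPred_eq, not_and, not_forall, not_not] at hpA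
      obtain ⟨i, hi, hpi⟩ := hpA hp
      exact Set.mem_biUnion hi hpi
  have m1 := spl_gmass_mono hw0 hw hcover
  have m2 := spl_gmass_union_le (S := A) (T := ⋃ i ∈ t, SplitQ (E i)) hw0 hw
  have m3 := spl_gmass_biUnion_le t (fun i => SplitQ (E i)) hw0 hw
  have m4 := spl_gmass_finite_le (w := fun p : ℕ => (p : ℝ) ^ (-s)) hfin
    (fun p => spl_natw_le_one (by linarith) p)
  unfold massQ at h3
  linarith

end Claimed.Agent.R239.SPL
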