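/-
R239 / SPL : the two Kummer descent steps (pure field theory).
-/
import Mathlib

set_option autoImplicit false

namespace Claimed.Agent.R239.SPL

open Polynomial IntermediateField

section abstractKummer

variable {K Ω : Type*} [Field K] [Field Ω] [Algebra K Ω]

/-- either `α ∈ K` or `X^s - a` is irreducible -/
theorem spl_kum_mem_or_irreducible {s : ℕ} (hs : s.Prime) {ζ : K} (hζ : IsPrimitiveRoot ζ s)
    {α : Ω} {a : K} (hα : α ^ s = algebraMap K Ω a) :
    α ∈ Set.range (algebraMap K Ω) ∨ Irreducible (X ^ s - C a) := by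
  by_cases h : ∃ b : K, b ^ s = a
  · left
    obtain ⟨b, rfl⟩ := h
    by_cases hb : b = 0
    · subst hb
      rw [zero_pow hs.ne_zero, map_zero] at hα
      exact ⟨0, by rw [map_zero, pow_eq_zero_iff hs.ne_zero |>.1 hα]⟩
    · have hb' : algebraMap K Ω b ≠ 0 := by
        rwa [Ne, map_eq_zero]
      have hζ' := hζ.map_of_injective (algebraMap K Ω).injective
      have : NeZero s := ⟨hs.ne_zero⟩
      obtain ⟨i, -, hi⟩ := hζ'.eq_pow_of_pow_eq_one (ξ := α / algebraMap K Ω b) (by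
        rw [div_pow, hα, map_pow, div_self (pow_ne_zero _ hb')])
      exact ⟨ζ ^ i * b, by rw [map_mul, map_pow, hi, div_mul_cancel₀ _ hb']⟩
  · right
    exact X_pow_sub_C_irreducible_of_prime hs (fun b hb => h ⟨b, hb⟩)

theorem spl_kum_finrank {s : ℕ} (hs : 0 < s) {α : Ω} {a : K} (hα : α ^ s = algebraMap K Ω a)
    (H : Irreducible (X ^ s - C a)) : Module.finrank K K⟮α⟯ = s := by
  have hroot : aeval α (X ^ s - C a) = 0 := by simp [hα]
  have hmin : minpoly K α = X ^ s - C a :=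
    (minpoly.eq_of_irreducible_of_monic H hroot (monic_X_pow_sub_C a hs.ne')).symm
  have hint : IsIntegral K α := ⟨_, monic_X_pow_sub_C a hs.ne', hroot⟩
  rw [IntermediateField.adjoin.finrank hint, hmin, natDegree_X_pow_sub_C]

theorem spl_kum_coprime {s t : ℕ} (hs : s.Prime) (ht : t.Prime) (hst : s ≠ t) {ζ ξ : K}
    (hζ : IsPrimitiveRoot ζ s) (hξ : IsPrimitiveRoot ξ t) {α c : Ω} {a b : K}
    (hα : α ^ t = algebraMap K Ω a) (hc : c ∈ K⟮α⟯) (hcs : c ^ s = algebraMap K Ω b) :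
    c ∈ Set.range (algebraMap K Ω) := by
  rcases spl_kum_mem_or_irreducible hs hζ hcs with h | H
  · exact h
  exfalso
  have h1 := spl_kum_finrank hs.pos hcs H
  have hle : K⟮c⟯ ≤ K⟮α⟯ := IntermediateField.adjoin_simple_le_iff.2 hc
  have hdvd := IntermediateField.finrank_dvd_of_le_right hle
  rw [h1] at hdvd
  rcases spl_kum_mem_or_irreducible ht hξ hα with h | H'
  · have hbot : K⟮α⟯ = ⊥ := IntermediateField.adjoin_simple_eq_bot_iff.2 (IntermediateField.mem_bot.2 h)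
    rw [hbot, IntermediateField.finrank_bot] at hdvd
    exact hs.one_lt.ne' (Nat.dvd_one.1 hdvd)
  · rw [spl_kum_finrank ht.pos hα H'] at hdvd
    exact hst ((Nat.prime_dvd_prime_iff_eq hs ht).1 hdvd)

/-- Kummer theory in a splitting field of `X^s - a`. -/
theorem spl_kum_same_splitting {L : Type*} [Field L] [Algebra K L] {s : ℕ} (hs : s.Prime) {ζ : K}
    (hζ : IsPrimitiveRoot ζ s) {a : K} (H : Irreducible (X ^ s - C a))
    [IsSplittingField K L (X ^ s - C a)] {α c : L} (hα : α ^ s = algebraMap K L a) {b : K}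
    (hc : c ^ s = algebraMap K L b) : ∃ k : ℕ, ∃ c' : K, c = α ^ k * algebraMap K L c' := by
  have : NeZero s := ⟨hs.ne_zero⟩
  have : Fact s.Prime := ⟨hs⟩
  have hprim : (primitiveRoots s K).Nonempty := ⟨ζ, (mem_primitiveRoots hs.pos).2 hζ⟩
  have hgal : IsGalois K L := isGalois_of_isSplittingField_X_pow_sub_C hprim H L
  have hfd : FiniteDimensional K L := Polynomial.IsSplittingField.finiteDimensional L (X ^ s - C a)
  by_cases hc0 : c = 0
  · exact ⟨0, 0, by simp [hc0]⟩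
  have hα0 : α ≠ 0 := by
    rintro rfl
    rw [zero_pow hs.ne_zero] at hα
    have ha : a = 0 := by
      have := hα.symm
      rwa [map_eq_zero] at this
    subst ha
    rw [C_0, sub_zero] at H
    exact hs.one_lt.ne' (by
      have := H.isUnit_or_isUnit (a := X) (b := X ^ (s - 1)) (by
        rw [← pow_succ', Nat.sub_add_cancel hs.one_lt.le])
      rcases this with h | h
      · exact absurd h not_isUnit_X
      · by_contra hne
        have h2 : s - 1 ≠ 0 := by
          have := hs.one_lt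
          omega
        exact not_isUnit_X ((isUnit_pow_iff h2).1 h))
  let σ : Gal(L/K) := (autEquivZmod H L hζ).symm (Multiplicative.ofAdd ((1 : ℕ) : ZMod s))
  have hσα : σ α = algebraMap K L ζ * α := by
    have := autEquivZmod_symm_apply_natCast H L hα hζ 1
    rw [pow_one, Algebra.smul_def] at this
    exact this
  have hζ' := hζ.map_of_injective (algebraMap K L).injective
  obtain ⟨k, -, hk⟩ := hζ'.eq_pow_of_pow_eq_one (ξ := σ c / c) (by
    rw [div_pow, ← map_pow, hc, AlgEquiv.commutes, div_self]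
    rw [← hc]
    exact pow_ne_zero _ hc0)
  have hσc : σ c = algebraMap K L ζ ^ k * c := by
    rw [hk, div_mul_cancel₀ _ hc0]
  have hfix : σ (c / α ^ k) = c / α ^ k := by
    rw [map_div₀, map_pow, hσα, hσc, mul_pow, mul_div_mul_left]
    exact pow_ne_zero _ (hζ'.ne_zero hs.ne_zero)
  have hσ1 : σ ≠ 1 := by
    intro h1
    rw [h1, AlgEquiv.one_apply] at hσα
    have h2 : algebraMap K L ζ = 1 := by
      have := mul_right_cancel₀ hα0 ((one_mul α).trans hσα)
      exact this.symm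
    exact hζ'.ne_one hs.one_lt h2
  have hcard : Nat.card Gal(L/K) = s := by
    rw [Nat.card_congr (autEquivZmod H L hζ).toEquiv, Nat.card_congr Multiplicative.toAdd,
      Nat.card_zmod]
  have htop : Subgroup.zpowers σ = ⊤ := zpowers_eq_top_of_prime_card hcard hσ1
  have hall : ∀ τ : Gal(L/K), τ (c / α ^ k) = c / α ^ k := by
    intro τ
    have hτ : τ ∈ MulAction.stabilizer Gal(L/K) (c / α ^ k) := by
      have hle : Subgroup.zpowers σ ≤ MulAction.stabilizer Gal(L/K) (c / α ^ k) := by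
        rw [Subgroup.zpowers_le]
        exact hfix
      exact hle (htop ▸ Subgroup.mem_top τ)
    exact hτ
  obtain ⟨c', hc'⟩ := IntermediateField.mem_bot.1 ((IsGalois.mem_bot_iff_fixed _).2 hall)
  exact ⟨k, c', by rw [hc', mul_div_cancel₀ _ (pow_ne_zero _ hα0)]⟩

/-- `K ∋ ζ_s`, `α^s ∈ K`, `c ∈ K(α)`, `c^s ∈ K`  ⟹  `c = α^k c'` with `c' ∈ K`. -/
theorem spl_kum_same {s : ℕ} (hs : s.Prime) {ζ : K} (hζ : IsPrimitiveRoot ζ s) {α c : Ω} {a b : K}
    (hα : α ^ s = algebraMap K Ω a) (hc : c ∈ K⟮α⟯) (hcs : c ^ s = algebraMap K Ω b) :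
    ∃ k : ℕ, ∃ c' : K, c = α ^ k * algebraMap K Ω c' := by
  rcases spl_kum_mem_or_irreducible hs hζ hα with h | H
  · have hbot : K⟮α⟯ = ⊥ :=
      IntermediateField.adjoin_simple_eq_bot_iff.2 (IntermediateField.mem_bot.2 h)
    rw [hbot] at hc
    obtain ⟨c', rfl⟩ := IntermediateField.mem_bot.1 hc
    exact ⟨0, c', by simp⟩
  · have hprim : (primitiveRoots s K).Nonempty := ⟨ζ, (mem_primitiveRoots hs.pos).2 hζ⟩
    have := Fact.mk H
    have := isSplittingField_AdjoinRoot_X_pow_sub_C hprim H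
    have hroot : (X ^ s - C a : K[X]).eval₂ (Algebra.ofId K Ω) α = 0 := by
      simp [hα]
    let φ : AdjoinRoot (X ^ s - C a) →ₐ[K] Ω :=
      AdjoinRoot.liftAlgHom (X ^ s - C a) (Algebra.ofId K Ω) α hroot
    have halg : IsAlgebraic K α :=
      ⟨X ^ s - C a, X_pow_sub_C_ne_zero hs.pos a, by simp [hα]⟩
    have hc' : c ∈ (K⟮α⟯).toSubalgebra := hc
    rw [adjoin_simple_toSubalgebra_of_isAlgebraic halg,
      Algebra.adjoin_singleton_eq_range_aeval] at hc'
    obtain ⟨p, rfl⟩ := hc'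
    have hφp : φ (AdjoinRoot.mk _ p) = aeval α p := rfl
    have hφr : φ (AdjoinRoot.root _) = α := AdjoinRoot.liftAlgHom_root _ _ _ _
    have h1 : (AdjoinRoot.mk (X ^ s - C a) p) ^ s = algebraMap K _ b := by
      have hinj : Function.Injective φ := φ.toRingHom.injective
      apply hinj
      rw [map_pow, hφp, AlgHom.commutes]
      exact hcs
    obtain ⟨k, c', hk⟩ := spl_kum_same_splitting hs hζ H (root_X_pow_sub_C_pow s a) h1
    refine ⟨k, c', ?_⟩
    have := congrArg φ hk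
    rw [hφp, map_mul, map_pow, hφr, AlgHom.commutes] at this
    exact this

/-- abstract form of `spl_pow_of_pow_in_cyclotomic` -/
theorem spl_pow_of_pow_in_cyclotomic_aux {s M : ℕ} (hs : s.Prime) (hs2 : s ≠ 2) (hM : 0 < M)
    [NeZero (s : K)] (hirr : Irreducible (cyclotomic s K)) {x : K}
    {y : Ω} (hy : y ∈ IntermediateField.adjoin K {z : Ω | z ^ M = 1})
    (hyx : y ^ s = algebraMap K Ω x) : ∃ r : K, r ^ s = x := by
  by_contra hno
  push Not at hno
  have H : Irreducible (X ^ s - C x) := X_pow_sub_C_irreducible_of_prime hs hno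
  let S : Set ℕ := {n | n ∣ M ∧ ∃ r : Ω, IsPrimitiveRoot r n}
  have hset : {z : Ω | z ^ M = 1} = {b : Ω | ∃ n ∈ S, n ≠ 0 ∧ b ^ n = 1} := by
    ext z
    constructor
    · intro hz
      have hz' : z ^ M = 1 := hz
      have hdvd : orderOf z ∣ M := orderOf_dvd_of_pow_eq_one hz'
      exact ⟨orderOf z, ⟨hdvd, z, IsPrimitiveRoot.orderOf z⟩,
        fun h0 => hM.ne' (Nat.eq_zero_of_zero_dvd (h0 ▸ hdvd)), pow_orderOf_eq_one z⟩
    · rintro ⟨n, ⟨⟨k, rfl⟩, -⟩, -, hz⟩
      show z ^ (n * k) = 1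
      rw [pow_mul, hz, one_pow]
  rw [hset] at hy
  have hcyc : IsCyclotomicExtension S K
      (IntermediateField.adjoin K {b : Ω | ∃ n ∈ S, n ≠ 0 ∧ b ^ n = 1}) :=
    IntermediateField.isCyclotomicExtension_adjoin_of_exists_isPrimitiveRoot S K Ω
      (fun n hn _ => hn.2)
  generalize IntermediateField.adjoin K {b : Ω | ∃ n ∈ S, n ≠ 0 ∧ b ^ n = 1} = F at hy hcyc
  have hab : IsAbelianGalois K F := IsCyclotomicExtension.isAbelianGalois S K F
  have hSfin : Finite S :=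
    ((Set.finite_Iic M).subset (fun n hn => Nat.le_of_dvd hM hn.1)).to_subtype
  have hfd : FiniteDimensional K F := IsCyclotomicExtension.finiteDimensional S K F
  let y' : F := ⟨y, hy⟩
  have hy' : y' ^ s = algebraMap K F x := Subtype.ext hyx
  have hfin := spl_kum_finrank hs.pos hy' H
  have hnot : y' ∉ (⊥ : IntermediateField K F) := by
    intro h
    obtain ⟨r, hr⟩ := IntermediateField.mem_bot.1 h
    apply hno r
    apply (algebraMap K F).injective
    rw [map_pow, hr, hy']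
  rw [IsGalois.mem_bot_iff_fixed] at hnot
  push Not at hnot
  obtain ⟨σ, hσ⟩ := hnot
  have hσE : σ y' ∈ K⟮y'⟯ := by
    rw [← IsGalois.fixedField_fixingSubgroup K⟮y'⟯, IntermediateField.mem_fixedField_iff]
    intro τ hτ
    have hτy : τ y' = y' :=
      (IntermediateField.mem_fixingSubgroup_iff _ _).1 hτ y' (mem_adjoin_simple_self K y')
    have hcomm : τ * σ = σ * τ := IsMulCommutative.is_comm.comm τ σ
    calc τ (σ y') = (τ * σ) y' := rfl
      _ = (σ * τ) y' := by rw [hcomm]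
      _ = σ y' := by rw [AlgEquiv.mul_apply, hτy]
  have hy0 : y' ≠ 0 := by
    intro h0
    apply hσ
    rw [h0, map_zero]
  have hζs : (σ y' / y') ^ s = 1 := by
    rw [div_pow, ← map_pow, hy', AlgEquiv.commutes, div_self]
    rw [← hy']
    exact pow_ne_zero _ hy0
  have hζ1 : σ y' / y' ≠ 1 := by
    intro h1
    exact hσ ((div_eq_one_iff_eq hy0).1 h1)
  have hprim : IsPrimitiveRoot (σ y' / y') s := by
    have h := IsPrimitiveRoot.orderOf (σ y' / y')
    have : Fact s.Prime := ⟨hs⟩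
    rwa [orderOf_eq_prime hζs hζ1] at h
  have hle : K⟮σ y' / y'⟯ ≤ K⟮y'⟯ :=
    IntermediateField.adjoin_simple_le_iff.2 (div_mem hσE (mem_adjoin_simple_self K y'))
  have hdvd := IntermediateField.finrank_dvd_of_le_right hle
  rw [hfin, IntermediateField.adjoin.finrank (hprim.isIntegral hs.pos).tower_top,
    ← hprim.minpoly_eq_cyclotomic_of_irreducible hirr, natDegree_cyclotomic, Nat.totient_prime hs] at hdvd
  have h1 : s - 1 ∣ 1 := by
    have h2 : s - 1 ∣ (s - 1) + 1 := by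
      rwa [Nat.sub_add_cancel hs.one_lt.le]
    exact (Nat.dvd_add_right (dvd_refl _)).1 h2
  have h3 := Nat.dvd_one.1 h1
  omega


end abstractKummer

variable {Ω : Type*} [Field Ω] [CharZero Ω] [Algebra ℚ Ω]

omit [CharZero Ω] in
theorem spl_mem_sup_adjoin_iff (C : IntermediateField ℚ Ω) (α c : Ω) :
    c ∈ C ⊔ IntermediateField.adjoin ℚ {α} ↔ c ∈ (IntermediateField.adjoin C {α}) := by
  rw [← restrictScalars_adjoin_eq_sup, mem_restrictScalars]

/-- `t ≠ s` primes, `C ∋ ζ_s, ζ_t`, `α^t ∈ C`, `c ∈ C(α)`, `c^s ∈ C`  ⟹  `c ∈ C`.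
(`[C(c):C] ∈ {1,s}` divides `[C(α):C] ∈ {1,t}`.) -/
theorem spl_kummer_coprime_step (C : IntermediateField ℚ Ω) {s t : ℕ} (hs : s.Prime) (ht : t.Prime)
    (hst : s ≠ t) {ζ ξ : Ω} (hζ : IsPrimitiveRoot ζ s) (hζC : ζ ∈ C) (hξ : IsPrimitiveRoot ξ t)
    (hξC : ξ ∈ C) {α c : Ω} (hα : α ^ t ∈ C) (hc : c ∈ C ⊔ IntermediateField.adjoin ℚ {α})
    (hcs : c ^ s ∈ C) : c ∈ C := by
  have hζ' : IsPrimitiveRoot (⟨ζ, hζC⟩ : C) s :=
    IsPrimitiveRoot.of_map_of_injective (f := algebraMap C Ω) hζ (algebraMap C Ω).injective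
  have hξ' : IsPrimitiveRoot (⟨ξ, hξC⟩ : C) t :=
    IsPrimitiveRoot.of_map_of_injective (f := algebraMap C Ω) hξ (algebraMap C Ω).injective
  obtain ⟨x, hx⟩ := spl_kum_coprime (K := C) hs ht hst hζ' hξ' (a := ⟨α ^ t, hα⟩)
    (b := ⟨c ^ s, hcs⟩) rfl ((spl_mem_sup_adjoin_iff C α c).1 hc) rfl
  rw [← hx]
  exact x.2

/-- `C ∋ ζ_s`, `α^s = a ∈ C`, `c ∈ C(α)`, `c^s ∈ C`  ⟹  `c^s = a^k c'^s` with `c' ∈ C`.
(If `α ∉ C`: `C(α)/C` is cyclic of degree `s`, `σ α = ζ α`, `σ c = ζ^k c`, `c' = c / α^k` is fixed.) -/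
theorem spl_kummer_same_step (C : IntermediateField ℚ Ω) {s : ℕ} (hs : s.Prime)
    {ζ : Ω} (hζ : IsPrimitiveRoot ζ s) (hζC : ζ ∈ C) {α c : Ω} (hα0 : α ≠ 0) (hα : α ^ s ∈ C)
    (hc : c ∈ C ⊔ IntermediateField.adjoin ℚ {α}) (hcs : c ^ s ∈ C) :
    ∃ k : ℕ, ∃ c' ∈ C, c ^ s = (α ^ s) ^ k * c' ^ s := by
  have hζ' : IsPrimitiveRoot (⟨ζ, hζC⟩ : C) s :=
    IsPrimitiveRoot.of_map_of_injective (f := algebraMap C Ω) hζ (algebraMap C Ω).injective
  obtain ⟨k, c', hk⟩ := spl_kum_same (K := C) hs hζ' (a := ⟨α ^ s, hα⟩)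
    (b := ⟨c ^ s, hcs⟩) rfl ((spl_mem_sup_adjoin_iff C α c).1 hc) rfl
  refine ⟨k, c', c'.2, ?_⟩
  rw [hk, mul_pow, ← pow_mul, ← pow_mul, mul_comm k s]
  rfl

/-- `s` an odd prime, `x ∈ ℚ`, `y^s = x` with `y` in the field generated by the `M`-th roots of unity ⟹ `x` is an `s`-th power
in `ℚ`.  (Otherwise `X^s - x` is irreducible, `ℚ(y)/ℚ` is normal as a subfield of an abelian extension, so it contains
`ζ_s`, and `s - 1 = [ℚ(ζ_s):ℚ]` divides `s`.) -/
theorem spl_pow_of_pow_in_cyclotomic {s M : ℕ} (hs : s.Prime) (hs2 : s ≠ 2) (hM : 0 < M) {x : ℚ}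
    {y : Ω} (hy : y ∈ IntermediateField.adjoin ℚ {z : Ω | z ^ M = 1})
    (hyx : y ^ s = algebraMap ℚ Ω x) : ∃ r : ℚ, r ^ s = x :=
  have : NeZero (s : ℚ) := ⟨by exact_mod_cast hs.ne_zero⟩
  spl_pow_of_pow_in_cyclotomic_aux hs hs2 hM (cyclotomic.irreducible_rat hs.pos) hy hyx

end Claimed.Agent.R239.SPL
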