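/-
R239 / SPL : splitting fields of finite families of integer polynomials inside `AlgebraicClosure ℚ`, and the
Dedekind criterion "`ℓ` splits completely in the splitting field iff the polynomials split mod `ℓ`".
-/
import Claimed.Agent.R239.SPL.RatSplit

set_option autoImplicit false
set_option linter.unusedSectionVars false

namespace Claimed.Agent.R239.SPL

open IsDedekindDomain NumberField Polynomial
open scoped Pointwise

/-- the ambient algebraic closure -/
abbrev Om := AlgebraicClosure ℚ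

instance spl_Om_isAlgebraic : Algebra.IsAlgebraic ℚ Om := AlgebraicClosure.isAlgebraic ℚ

/-- the subfield of `Om` generated by all roots of the polynomials in `H` -/
noncomputable def SF (H : Finset ℤ[X]) : IntermediateField ℚ Om :=
  IntermediateField.adjoin ℚ (⋃ h ∈ H, h.rootSet Om)

theorem spl_SF_mono {H H' : Finset ℤ[X]} (h : H ⊆ H') : SF H ≤ SF H' := by
  apply IntermediateField.adjoin.mono
  exact Set.biUnion_subset_biUnion_left h

theorem spl_root_mem_SF {H : Finset ℤ[X]} {h : ℤ[X]} (hh : h ∈ H) (h0 : h ≠ 0) {y : Om}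
    (hy : aeval y h = 0) : y ∈ SF H := by
  apply IntermediateField.subset_adjoin
  exact Set.mem_biUnion hh (mem_rootSet.mpr ⟨h0, hy⟩)

theorem spl_SF_gen_finite (H : Finset ℤ[X]) : (⋃ h ∈ H, h.rootSet Om).Finite :=
  H.finite_toSet.biUnion (fun h _ => rootSet_finite h Om)

/-- finitely many algebraic generators. -/
instance spl_SF_numberField (H : Finset ℤ[X]) : NumberField (SF H) where
  to_charZero := inferInstance
  to_finiteDimensional := by
    have : Finite (⋃ h ∈ H, h.rootSet Om : Set Om) := (spl_SF_gen_finite H).to_subtype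
    exact IntermediateField.finiteDimensional_adjoin
      (fun x _ => (Algebra.IsAlgebraic.isAlgebraic (R := ℚ) x).isIntegral)

theorem spl_rootSet_map (h : ℤ[X]) : (h.map (algebraMap ℤ ℚ)).rootSet Om = h.rootSet Om := by
  ext y
  rw [mem_rootSet, mem_rootSet, aeval_map_algebraMap,
    Polynomial.map_ne_zero_iff (algebraMap ℤ ℚ).injective_int]

theorem spl_SF_eq_iSup (H : Finset ℤ[X]) :
    SF H = ⨆ h : H, IntermediateField.adjoin ℚ (((h : ℤ[X]).map (algebraMap ℤ ℚ)).rootSet Om) := by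
  unfold SF
  have e : (⋃ h ∈ H, h.rootSet Om) = ⋃ h : H, (h : ℤ[X]).rootSet Om := by
    ext y
    simp
  rw [e, IntermediateField.adjoin_iUnion]
  simp_rw [spl_rootSet_map]

/-- `SF H` is a compositum of splitting fields: normal; char `0`. -/
instance spl_SF_isGalois (H : Finset ℤ[X]) : IsGalois ℚ (SF H) := by
  have hn : Normal ℚ (SF H) := by
    rw [spl_SF_eq_iSup]
    have : ∀ h : H, Normal ℚ
        (IntermediateField.adjoin ℚ (((h : ℤ[X]).map (algebraMap ℤ ℚ)).rootSet Om)) := by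
      intro h
      have h1 := IntermediateField.adjoin_rootSet_isSplittingField (K := ℚ) (L := Om)
        (p := (h : ℤ[X]).map (algebraMap ℤ ℚ)) (IsAlgClosed.splits _)
      exact @Normal.of_isSplittingField ℚ _ _ _ _ ((h : ℤ[X]).map (algebraMap ℤ ℚ)) h1
    exact @IntermediateField.normal_iSup ℚ Om _ _ _ _ _ this
  exact { }

/-- a member of `H` splits over `SF H` -/
theorem spl_splits_SF (H : Finset ℤ[X]) {h : ℤ[X]} (hh : h ∈ H) :
    (h.map (algebraMap ℤ (SF H))).Splits := by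
  have h1 : ((h.map (algebraMap ℤ ℚ)).map (algebraMap ℚ (SF H))).Splits := by
    apply IntermediateField.splits_of_splits (IsAlgClosed.splits _)
    intro x hx
    rw [spl_rootSet_map] at hx
    exact IntermediateField.subset_adjoin _ _ (Set.mem_biUnion hh hx)
  rwa [Polynomial.map_map, ← IsScalarTower.algebraMap_eq] at h1

/-- a monic member of `H` splits over the ring of integers of `SF H` -/
theorem spl_splits_SF_int (H : Finset ℤ[X]) {h : ℤ[X]} (hh : h ∈ H) (hm : h.Monic) :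
    (h.map (algebraMap ℤ (𝓞 (SF H)))).Splits := by
  have e : (h.map (algebraMap ℤ (𝓞 (SF H)))).map (algebraMap (𝓞 (SF H)) (SF H)) =
      h.map (algebraMap ℤ (SF H)) := by
    rw [Polynomial.map_map, ← IsScalarTower.algebraMap_eq]
  refine Splits.of_splits_map_of_injective (i := algebraMap (𝓞 (SF H)) (SF H))
    (RingOfIntegers.coe_injective) (by rw [e]; exact spl_splits_SF H hh) ?_
  intro a ha
  rw [e] at ha
  have ha2 : IsIntegral ℤ a := by
    refine ⟨h, hm, ?_⟩
    have := (mem_roots'.mp ha).2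
    rwa [IsRoot.def, eval_map] at this
  exact ⟨⟨a, ha2⟩, rfl⟩

section quot

variable {E : Type*} [Field E] [NumberField E]

theorem spl_card_quot (w : Pl E) : Nat.card (𝓞 E ⧸ w.asIdeal) = nrm w := by
  unfold nrm
  rw [Ideal.absNorm_apply, Submodule.cardQuot_apply]

theorem spl_charP_quot (w : Pl E) {ℓ : ℕ} (hℓ : ℓ.Prime) (hw : (ℓ : 𝓞 E) ∈ w.asIdeal) :
    CharP (𝓞 E ⧸ w.asIdeal) ℓ := by
  have : Nontrivial (𝓞 E ⧸ w.asIdeal) := Ideal.Quotient.nontrivial_iff.mpr w.isPrime.ne_top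
  rw [CharP.charP_iff_prime_eq_zero hℓ]
  have := Ideal.Quotient.eq_zero_iff_mem.mpr hw
  simpa using this

/-- the canonical map `ZMod ℓ → 𝓞 / w` -/
noncomputable def quotHom (w : Pl E) {ℓ : ℕ} (hℓ : ℓ.Prime) (hw : (ℓ : 𝓞 E) ∈ w.asIdeal) :
    ZMod ℓ →+* (𝓞 E ⧸ w.asIdeal) :=
  have := spl_charP_quot w hℓ hw
  ZMod.castHom (dvd_refl ℓ) (𝓞 E ⧸ w.asIdeal)

theorem spl_map_quotHom (w : Pl E) {ℓ : ℕ} (hℓ : ℓ.Prime) (hw : (ℓ : 𝓞 E) ∈ w.asIdeal)
    (h : ℤ[X]) : (h.map (Int.castRingHom (ZMod ℓ))).map (quotHom w hℓ hw) =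
      (h.map (algebraMap ℤ (𝓞 E))).map (Ideal.Quotient.mk w.asIdeal) := by
  rw [Polynomial.map_map, Polynomial.map_map]
  congr 1
  exact RingHom.ext_int _ _

theorem spl_quotHom_surjective (w : Pl E) {ℓ : ℕ} (hℓ : ℓ.Prime) (hw : (ℓ : 𝓞 E) ∈ w.asIdeal)
    (hn : nrm w = ℓ) : Function.Surjective (quotHom w hℓ hw) := by
  have : Fact ℓ.Prime := ⟨hℓ⟩
  have : Nontrivial (𝓞 E ⧸ w.asIdeal) := Ideal.Quotient.nontrivial_iff.mpr w.isPrime.ne_top
  have hinj : Function.Injective (quotHom w hℓ hw) := RingHom.injective _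
  have hcard : Nat.card (ZMod ℓ) = Nat.card (𝓞 E ⧸ w.asIdeal) := by
    rw [spl_card_quot, hn, Nat.card_zmod]
  have : Finite (𝓞 E ⧸ w.asIdeal) := by
    apply Nat.finite_of_card_ne_zero
    rw [spl_card_quot, hn]
    exact hℓ.ne_zero
  exact ((Nat.bijective_iff_injective_and_card _).mpr ⟨hinj, hcard⟩).2

end quot

theorem spl_splits_of_splitQ (H : Finset ℤ[X]) {h : ℤ[X]} (hh : h ∈ H) (hm : h.Monic) {ℓ : ℕ}
    (hℓ : ℓ ∈ SplitQ (SF H)) : (h.map (Int.castRingHom (ZMod ℓ))).Splits := by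
  have : Fact ℓ.Prime := ⟨hℓ.1⟩
  obtain ⟨w, hw⟩ := spl_exists_chr_eq (SF H) hℓ.1
  have hmem : (ℓ : 𝓞 (SF H)) ∈ w.asIdeal := hw ▸ spl_chr_mem (SF H) w
  have hn := spl_splitQ_nrm (SF H) hℓ w hmem
  have : IsDomain (𝓞 (SF H) ⧸ w.asIdeal) := Ideal.Quotient.isDomain _
  refine Splits.of_splits_map (quotHom w hℓ.1 hmem) ?_
    (fun a _ => spl_quotHom_surjective w hℓ.1 hmem hn a)
  rw [spl_map_quotHom]
  exact (spl_splits_SF_int H hh hm).map _

/-- two distinct roots in a domain give a product of two linear factors -/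
theorem spl_mul_dvd_of_roots {R : Type*} [CommRing R] [IsDomain R] {f : R[X]} {a b : R}
    (ha : f.IsRoot a) (hb : f.IsRoot b) (hab : a ≠ b) : (X - C a) * (X - C b) ∣ f := by
  obtain ⟨r, rfl⟩ := dvd_iff_isRoot.mpr ha
  have hb2 : r.IsRoot b := by
    rw [IsRoot.def, eval_mul, eval_sub, eval_X, eval_C] at hb
    rcases mul_eq_zero.mp hb with h | h
    · exact absurd (sub_eq_zero.mp h).symm hab
    · exact h
  obtain ⟨r', rfl⟩ := dvd_iff_isRoot.mpr hb2
  exact ⟨r', by ring⟩

theorem spl_splitQ_of_splits (H : Finset ℤ[X]) (hm : ∀ h ∈ H, h.Monic) {ℓ : ℕ} (hℓ : ℓ.Prime)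
    (hs : ∀ h ∈ H, (h.map (Int.castRingHom (ZMod ℓ))).Separable ∧
      (h.map (Int.castRingHom (ZMod ℓ))).Splits) : ℓ ∈ SplitQ (SF H) := by
  have : Fact ℓ.Prime := ⟨hℓ⟩
  refine ⟨hℓ, fun w hw => ?_⟩
  have : IsDomain (𝓞 (SF H) ⧸ w.asIdeal) := Ideal.Quotient.isDomain _
  rw [eq_bot_iff]
  intro g hg
  rw [Subgroup.mem_bot]
  have hgw : g • w.asIdeal = w.asIdeal := MulAction.mem_stabilizer_iff.mp hg
  -- `g` fixes every generator
  have key : ∀ (x : Om) (hx : x ∈ ⋃ h ∈ H, h.rootSet Om),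
      g ⟨x, IntermediateField.subset_adjoin _ _ hx⟩ = ⟨x, IntermediateField.subset_adjoin _ _ hx⟩ := by
    intro x hx
    obtain ⟨h, hh, hxh⟩ := Set.mem_iUnion₂.mp hx
    obtain ⟨h0, hroot⟩ := mem_rootSet.mp hxh
    set y : SF H := ⟨x, IntermediateField.subset_adjoin _ _ hx⟩ with hy
    have hyroot : aeval y h = 0 := by
      apply (algebraMap (SF H) Om).injective
      rw [map_zero, ← aeval_algebraMap_apply]
      exact hroot
    have hyint : IsIntegral ℤ y := ⟨h, hm h hh, by rwa [← aeval_def]⟩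
    set y' : 𝓞 (SF H) := ⟨y, hyint⟩ with hy'
    set hO := h.map (algebraMap ℤ (𝓞 (SF H))) with hhO
    have hr1 : hO.IsRoot y' := by
      rw [IsRoot.def, hhO, eval_map_algebraMap]
      apply RingOfIntegers.coe_injective
      rw [map_zero, ← aeval_algebraMap_apply]
      exact hyroot
    have hr2 : hO.IsRoot (g • y') := by
      rw [IsRoot.def, hhO, eval_map_algebraMap]
      apply RingOfIntegers.coe_injective
      rw [map_zero, ← aeval_algebraMap_apply]
      change aeval (g y) h = 0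
      have := aeval_algHom_apply ((g : SF H →ₐ[ℚ] SF H).restrictScalars ℤ) y h
      rw [hyroot, map_zero] at this
      exact this
    -- `y'` is congruent to an integer mod `w`
    have hbar : (hO.map (Ideal.Quotient.mk w.asIdeal)).IsRoot (Ideal.Quotient.mk w.asIdeal y') :=
      hr1.map
    rw [hhO, ← spl_map_quotHom w hℓ hw] at hbar
    have hne : h.map (Int.castRingHom (ZMod ℓ)) ≠ 0 := ((hm h hh).map _).ne_zero
    obtain ⟨a, ha⟩ := (hs h hh).2.mem_range_of_isRoot hne hbar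
    obtain ⟨c, rfl⟩ := ZMod.intCast_surjective a
    have hc : y' - (c : 𝓞 (SF H)) ∈ w.asIdeal := by
      rw [← Ideal.Quotient.eq_zero_iff_mem, map_sub, ← ha]
      simp
    have hgc : g • y' - (c : 𝓞 (SF H)) ∈ w.asIdeal := by
      have h1 : g • (y' - (c : 𝓞 (SF H))) ∈ g • w.asIdeal :=
        Ideal.smul_mem_pointwise_smul _ _ _ hc
      rw [hgw, smul_sub] at h1
      have h2 : g • (c : 𝓞 (SF H)) = (c : 𝓞 (SF H)) := by
        apply RingOfIntegers.coe_injective
        change g ((c : 𝓞 (SF H)) : SF H) = _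
        simp
      rwa [h2] at h1
    have hcong : Ideal.Quotient.mk w.asIdeal (g • y') = Ideal.Quotient.mk w.asIdeal y' := by
      rw [Ideal.Quotient.eq]
      have := sub_mem hgc hc
      simpa using this
    by_contra hne2
    have hne3 : y' ≠ g • y' := by
      intro heq
      apply hne2
      have := congrArg (fun z : 𝓞 (SF H) => (z : SF H)) heq
      exact this.symm
    have hdvd := spl_mul_dvd_of_roots hr1 hr2 hne3
    have hdvd2 := Polynomial.map_dvd (Ideal.Quotient.mk w.asIdeal) hdvd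
    rw [Polynomial.map_mul, Polynomial.map_sub, Polynomial.map_sub, map_X, map_C, map_C, hcong,
      hhO, ← spl_map_quotHom w hℓ hw] at hdvd2
    have hsq := ((hs h hh).1.map (f := quotHom w hℓ hw)).squarefree
    exact not_isUnit_X_sub_C _ (hsq _ hdvd2)
  have hext := IntermediateField.adjoin_algHom_ext ℚ (s := ⋃ h ∈ H, h.rootSet Om)
    (φ₁ := (g : SF H →ₐ[ℚ] SF H)) (φ₂ := AlgHom.id ℚ (SF H)) (fun x hx => key x hx)
  ext z
  exact congrArg (fun t : SF H => (t : Om)) (DFunLike.congr_fun hext z)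

end Claimed.Agent.R239.SPL
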