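/-
R239 / SPL : the degree estimate for Lemma 5.4.
-/
import Claimed.Agent.R239.SPL.SF
import Claimed.Agent.R239.SPL.KumStep

set_option autoImplicit false

namespace Claimed.Agent.R239.SPL

open Polynomial

/-- the family `{X^M - 1} ∪ {X^(s j) - q j}` -/
noncomputable def famH {n : ℕ} (M : ℕ) (s q : Fin n → ℕ) : Finset ℤ[X] := by
  classical exact insert (X ^ M - 1) (Finset.univ.image fun j : Fin n => X ^ (s j) - C (q j : ℤ))

/-- a rational number `p / q^k` (`p ≠ q` primes) is not an `s`-th power, `s ≥ 2` -/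
theorem spl_not_pow_rat {p q s : ℕ} (hp : p.Prime) (hq : q.Prime) (hpq : p ≠ q) (hs : 2 ≤ s) (k : ℕ)
    (r : ℚ) : r ^ s ≠ (p : ℚ) / (q : ℚ) ^ k := by
  intro h
  have : Fact p.Prime := ⟨hp⟩
  have : Fact q.Prime := ⟨hq⟩
  have hp0 : (p : ℚ) ≠ 0 := by exact_mod_cast hp.ne_zero
  have hq0 : (q : ℚ) ≠ 0 := by exact_mod_cast hq.ne_zero
  have h1 := congrArg (padicValRat p) h
  rw [padicValRat.pow, padicValRat.div hp0 (pow_ne_zero k hq0), padicValRat.pow,
    padicValRat.of_nat, padicValRat.of_nat, padicValNat_primes hpq, padicValNat_self] at h1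
  simp only [Nat.cast_one, Nat.cast_zero, mul_zero, sub_zero] at h1
  have h2 : (s : ℤ) ∣ 1 := ⟨_, h1.symm⟩
  have h3 := Int.le_of_dvd one_pos h2
  omega

/-- the tower `ℚ(μ_M)(α_i : i ∈ T)` -/
noncomputable def kumTower {n : ℕ} (M : ℕ) (α : Fin n → Om) (T : Finset (Fin n)) :
    IntermediateField ℚ Om :=
  IntermediateField.adjoin ℚ ({z : Om | z ^ M = 1} ∪ α '' (T : Set (Fin n)))

theorem kumTower_insert {n : ℕ} (M : ℕ) (α : Fin n → Om) (T : Finset (Fin n)) (i : Fin n) :
    kumTower M α (insert i T) = kumTower M α T ⊔ IntermediateField.adjoin ℚ {α i} := by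
  classical
  unfold kumTower
  rw [← IntermediateField.adjoin_union, Finset.coe_insert, Set.image_insert_eq, Set.union_assoc,
    Set.union_comm (α '' (T : Set (Fin n))) {α i}, Set.insert_eq]

theorem root_mem_kumTower {n : ℕ} {M : ℕ} (α : Fin n → Om) (T : Finset (Fin n)) {z : Om}
    (hz : z ^ M = 1) : z ∈ kumTower M α T :=
  IntermediateField.subset_adjoin ℚ _ (Or.inl hz)

theorem exists_prim_mem_kumTower {n : ℕ} {M t : ℕ} (α : Fin n → Om) (T : Finset (Fin n))
    (ht : 0 < t) (htM : t ∣ M) : ∃ ζ : Om, IsPrimitiveRoot ζ t ∧ ζ ∈ kumTower M α T := by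
  have : NeZero t := ⟨ht.ne'⟩
  obtain ⟨ζ, hζ⟩ := HasEnoughRootsOfUnity.exists_primitiveRoot Om t
  refine ⟨ζ, hζ, root_mem_kumTower α T ?_⟩
  obtain ⟨k, rfl⟩ := htM
  rw [pow_mul, hζ.pow_eq_one, one_pow]

theorem spl_tower_descent {n : ℕ} (M : ℕ) (s q : Fin n → ℕ) (hs : ∀ j, (s j).Prime)
    (hs2 : ∀ j, s j ≠ 2) (hinj : Function.Injective s) (hM : ∀ j, s j ∣ M) (hM0 : 0 < M)
    (hq : ∀ j, (q j).Prime) (j : Fin n) {p : ℕ} (hp : p.Prime) (hpq : p ≠ q j) (α : Fin n → Om)
    (hα : ∀ i, α i ^ s i = (q i : Om)) (T : Finset (Fin n)) :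
    ∀ c ∈ kumTower M α T, ∀ k : ℕ, (p : Om) ≠ (q j : Om) ^ k * c ^ s j := by
  classical
  have hq0 : (q j : Om) ≠ 0 := by exact_mod_cast (hq j).ne_zero
  have hrat : ∀ (C : IntermediateField ℚ Om) (c : Om) (k : ℕ),
      (p : Om) = (q j : Om) ^ k * c ^ s j → c ^ s j ∈ C := by
    intro C c k h
    have h1 : c ^ s j = (p : Om) / (q j : Om) ^ k := by
      rw [h, mul_div_cancel_left₀ _ (pow_ne_zero k hq0)]
    rw [h1]
    exact div_mem (natCast_mem C p) (pow_mem (natCast_mem C (q j)) k)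
  induction T using Finset.induction_on with
  | empty =>
    intro c hc k h
    have hc' : c ∈ IntermediateField.adjoin ℚ {z : Om | z ^ M = 1} := by
      simpa [kumTower] using hc
    have h1 : c ^ s j = algebraMap ℚ Om ((p : ℚ) / (q j : ℚ) ^ k) := by
      rw [map_div₀, map_pow, map_natCast, map_natCast, h,
        mul_div_cancel_left₀ _ (pow_ne_zero k hq0)]
    obtain ⟨r, hr⟩ := spl_pow_of_pow_in_cyclotomic (hs j) (hs2 j) hM0 hc' h1
    exact spl_not_pow_rat hp (hq j) hpq (hs j).two_le k r hr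
  | insert i T hi ih =>
    intro c hc k h
    rw [kumTower_insert] at hc
    obtain ⟨ζ, hζ, hζC⟩ := exists_prim_mem_kumTower α T (hs j).pos (hM j)
    have hcs := hrat (kumTower M α T) c k h
    by_cases hij : i = j
    · subst hij
      have hαC : α i ^ s i ∈ kumTower M α T := by
        rw [hα i]
        exact natCast_mem _ _
      have hα0 : α i ≠ 0 := by
        intro h0
        have := hα i
        rw [h0, zero_pow (hs i).ne_zero] at this
        exact hq0 this.symm
      obtain ⟨k', c', hc', hk'⟩ := spl_kummer_same_step (kumTower M α T) (hs i) hζ hζC hα0 hαC hc hcs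
      refine ih c' hc' (k + k') ?_
      rw [h, hk', hα i, pow_add, mul_assoc]
    · obtain ⟨ξ, hξ, hξC⟩ := exists_prim_mem_kumTower α T (hs i).pos (hM i)
      have hαC : α i ^ s i ∈ kumTower M α T := by
        rw [hα i]
        exact natCast_mem _ _
      have hst : s j ≠ s i := fun h' => hij (hinj h').symm
      exact ih c (spl_kummer_coprime_step (kumTower M α T) (hs j) (hs i) hst hζ hζC hξ hξC hαC hc hcs)
        k h

theorem spl_SF_le_kumTower {n : ℕ} (M : ℕ) (s q : Fin n → ℕ) (hs : ∀ j, 0 < s j)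
    (hM : ∀ j, s j ∣ M) (hq : ∀ j, q j ≠ 0) (α : Fin n → Om)
    (hα : ∀ i, α i ^ s i = (q i : Om)) : SF (famH M s q) ≤ kumTower M α Finset.univ := by
  classical
  unfold SF
  rw [IntermediateField.adjoin_le_iff]
  intro y hy
  simp only [Set.mem_iUnion] at hy
  obtain ⟨h, hh, hy⟩ := hy
  have hy0 : aeval y h = 0 := (mem_rootSet.1 hy).2
  unfold famH at hh
  rw [Finset.mem_insert, Finset.mem_image] at hh
  rcases hh with rfl | ⟨i, -, rfl⟩
  · refine root_mem_kumTower α _ ?_
    simpa [sub_eq_zero] using hy0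
  · have hyq : y ^ s i = (q i : Om) := by
      simpa [sub_eq_zero] using hy0
    have hq0 : (q i : Om) ≠ 0 := by exact_mod_cast hq i
    have hα0 : α i ≠ 0 := by
      intro h0
      have := hα i
      rw [h0, zero_pow (hs i).ne'] at this
      exact hq0 this.symm
    have h1 : (y / α i) ^ M = 1 := by
      obtain ⟨k, hk⟩ := hM i
      rw [hk, pow_mul, div_pow, hyq, hα i, div_self hq0, one_pow]
    have h2 : α i ∈ kumTower M α Finset.univ :=
      IntermediateField.subset_adjoin ℚ _ (Or.inr ⟨i, by simp, rfl⟩)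
    have h3 : y = (y / α i) * α i := (div_mul_cancel₀ y hα0).symm
    show y ∈ kumTower M α Finset.univ
    rw [h3]
    exact mul_mem (root_mem_kumTower α _ h1) h2

theorem exists_root_Om (t a : ℕ) (ht : 0 < t) : ∃ y : Om, y ^ t = (a : Om) :=
  IsAlgClosed.exists_pow_nat_eq _ ht

/-- Descend along the tower `C ⊆ C(α_1) ⊆ ... ⊆ C(α_1..α_n) = SF (famH M s q)`, `C = ℚ(μ_M)`, `α_i^(s i) = q i`, with
`spl_kummer_coprime_step` (`i ≠ j`) and `spl_kummer_same_step` (`i = j`): `p = (q j)^k c^(s j)`, `c ∈ C`; then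
`spl_pow_of_pow_in_cyclotomic` gives `p / (q j)^k ∈ ℚ^(s j)`, impossible by the `p`-adic valuation. -/
theorem spl_no_root {n : ℕ} (M : ℕ) (s q : Fin n → ℕ) (hs : ∀ j, (s j).Prime) (hs2 : ∀ j, s j ≠ 2)
    (hinj : Function.Injective s) (hM : ∀ j, s j ∣ M) (hM0 : 0 < M) (hq : ∀ j, (q j).Prime)
    (j : Fin n) {p : ℕ} (hp : p.Prime) (hpq : p ≠ q j) (β : Om) (hβ : β ∈ SF (famH M s q)) :
    β ^ (s j) ≠ (p : Om) := by
  choose α hα using fun i => exists_root_Om (s i) (q i) (hs i).pos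
  intro h
  refine spl_tower_descent M s q hs hs2 hinj hM hM0 hq j hp hpq α hα Finset.univ β
    (spl_SF_le_kumTower M s q (fun i => (hs i).pos) hM (fun i => (hq i).ne_zero) α hα hβ) 0 ?_
  rw [pow_zero, one_mul, h]

/-- degree count for one Kummer step on top of `F0` inside `F1` -/
theorem spl_finrank_ge_of_no_root {K Ω : Type*} [Field K] [Field Ω] [Algebra K Ω]
    (F0 F1 : IntermediateField K Ω) (h01 : F0 ≤ F1) [FiniteDimensional K F1] {s : ℕ} (hs : s.Prime)
    {γ : Ω} (hγ : γ ∈ F1) (a : F0) (hγa : γ ^ s = (a : Ω)) (hno : ∀ b : F0, b ^ s ≠ a) :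
    s * Module.finrank K F0 ≤ Module.finrank K F1 := by
  have H : Irreducible (X ^ s - C a) := X_pow_sub_C_irreducible_of_prime hs hno
  have h1 : Module.finrank F0 (IntermediateField.adjoin F0 {γ}) = s :=
    spl_kum_finrank hs.pos hγa H
  have h2 := Module.finrank_mul_finrank K F0 (IntermediateField.adjoin F0 {γ})
  have h3 : (IntermediateField.adjoin F0 {γ}).restrictScalars K ≤ F1 := by
    rw [IntermediateField.restrictScalars_adjoin_eq_sup]
    exact sup_le h01 (IntermediateField.adjoin_simple_le_iff.2 hγ)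
  have h4 := IntermediateField.finrank_le_of_le_right h3
  have h5 : Module.finrank K ((IntermediateField.adjoin F0 {γ}).restrictScalars K) =
      Module.finrank K (IntermediateField.adjoin F0 {γ}) := rfl
  rw [h5, ← h2, h1, mul_comm] at h4
  exact h4

/-- `X^(s j) - p` is irreducible over `SF (famH M s q)` (`X_pow_sub_C_irreducible_of_prime`). -/
theorem spl_degree_ge {n : ℕ} (M : ℕ) (s q : Fin n → ℕ) (hs : ∀ j, (s j).Prime)
    (hs2 : ∀ j, s j ≠ 2) (hinj : Function.Injective s) (hM : ∀ j, s j ∣ M) (hM0 : 0 < M)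
    (hq : ∀ j, (q j).Prime) (j : Fin n) {p : ℕ} (hp : p.Prime) (hpq : p ≠ q j) :
    s j * Module.finrank ℚ (SF (famH M s q)) ≤
      Module.finrank ℚ (SF (insert (X ^ (s j) - C (p : ℤ)) (famH M s q))) := by
  classical
  obtain ⟨γ, hγ⟩ := exists_root_Om (s j) p (hs j).pos
  have hγ1 : γ ∈ SF (insert (X ^ (s j) - C (p : ℤ)) (famH M s q)) :=
    spl_root_mem_SF (Finset.mem_insert_self _ _) (X_pow_sub_C_ne_zero (hs j).pos _) (by simp [hγ])
  have hfd : FiniteDimensional ℚ (SF (insert (X ^ (s j) - C (p : ℤ)) (famH M s q))) :=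
    NumberField.to_finiteDimensional
  refine spl_finrank_ge_of_no_root (SF (famH M s q)) _ (spl_SF_mono (Finset.subset_insert _ _))
    (hs j) hγ1 (p : SF (famH M s q)) (by rw [hγ]; simp) ?_
  intro b hb
  refine spl_no_root M s q hs hs2 hinj hM hM0 hq j hp hpq (b : Om) b.2 ?_
  have := congrArg (fun x : SF (famH M s q) => (x : Om)) hb
  simpa using this

end Claimed.Agent.R239.SPL
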