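/-
R239 / SPL : OUTPUT Lemma 5.4 (simultaneous separation by power residues).
-/
import Claimed.Agent.R239.SPL.KumDeg

set_option autoImplicit false

namespace Claimed.Agent.R239.SPL

open Polynomial

theorem spl_map_X_pow_sub_C (ℓ s : ℕ) (a : ℤ) :
    (X ^ s - C a : ℤ[X]).map (Int.castRingHom (ZMod ℓ)) = X ^ s - C (a : ZMod ℓ) := by
  simp

theorem spl_map_X_pow_sub_one (ℓ s : ℕ) :
    (X ^ s - 1 : ℤ[X]).map (Int.castRingHom (ZMod ℓ)) = X ^ s - C (1 : ZMod ℓ) := by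
  simp

/-- `X^M - 1` splits and is separable mod `ℓ` ⟹ `M ∣ ℓ - 1`. -/
theorem spl_dvd_sub_one_of_splits {M ℓ : ℕ} (hℓ : ℓ.Prime) (hM : ¬ ℓ ∣ M) (hM0 : 0 < M)
    (h : ((X ^ M - 1 : ℤ[X]).map (Int.castRingHom (ZMod ℓ))).Splits) : M ∣ ℓ - 1 := by
  classical
  have : Fact ℓ.Prime := ⟨hℓ⟩
  have : NeZero M := ⟨hM0.ne'⟩
  rw [spl_map_X_pow_sub_one] at h
  have hM' : (M : ZMod ℓ) ≠ 0 := by
    rwa [Ne, ZMod.natCast_eq_zero_iff]
  have hsep : (X ^ M - C (1 : ZMod ℓ)).Separable := separable_X_pow_sub_C 1 hM' one_ne_zero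
  have hcard : (nthRoots M (1 : ZMod ℓ)).card = M := by
    have := h.natDegree_eq_card_roots
    rw [natDegree_X_pow_sub_C] at this
    exact this.symm
  have hnodup : (nthRoots M (1 : ZMod ℓ)).Nodup := nodup_roots hsep
  have h1 : Fintype.card (rootsOfUnity M (ZMod ℓ)) = M := by
    rw [Fintype.card_congr (rootsOfUnityEquivNthRoots (ZMod ℓ) M), Fintype.card_subtype]
    have : (Finset.univ.filter fun x => x ∈ nthRoots M (1 : ZMod ℓ)) =
        (nthRoots M (1 : ZMod ℓ)).toFinset := by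
      ext x
      simp
    rw [this, Multiset.toFinset_card_of_nodup hnodup, hcard]
  have h2 := Subgroup.card_subgroup_dvd_card (rootsOfUnity M (ZMod ℓ))
  rw [Nat.card_eq_fintype_card, Nat.card_eq_fintype_card, h1, ZMod.card_units] at h2
  exact h2

/-- if `X^s - 1` splits mod `ℓ` and `a` is an `s`-th power mod `ℓ` then `X^s - a` splits mod `ℓ`. -/
theorem spl_splits_of_pow {s ℓ : ℕ} (hℓ : ℓ.Prime) (hs : 0 < s) (a : ℤ) (c : ZMod ℓ)
    (hc : c ^ s = (a : ZMod ℓ)) (hc0 : c ≠ 0)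
    (h : ((X ^ s - 1 : ℤ[X]).map (Int.castRingHom (ZMod ℓ))).Splits) :
    ((X ^ s - C a : ℤ[X]).map (Int.castRingHom (ZMod ℓ))).Splits := by
  have : Fact ℓ.Prime := ⟨hℓ⟩
  rw [spl_map_X_pow_sub_one] at h
  rw [spl_map_X_pow_sub_C, ← hc]
  have h1 : (X ^ s - C (c ^ s) : (ZMod ℓ)[X]) =
      C (c ^ s) * (X ^ s - C (1 : ZMod ℓ)).comp (C c⁻¹ * X) := by
    simp only [sub_comp, pow_comp, X_comp, C_comp, mul_pow, mul_sub, ← C_pow, ← mul_assoc, ← C_mul]
    rw [← mul_pow, mul_inv_cancel₀ hc0, one_pow, C_1, one_mul, mul_one]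
  rw [h1]
  exact (h.comp_of_natDegree_le_one ((natDegree_C_mul_le _ _).trans natDegree_X_le)).C_mul _

/-- group theory in `(ZMod ℓ)ˣ`: `q = c^s`, `p` not an `s`-th power, `s` prime, `1 ≤ f < s` ⟹ `p^f ≠ q^k`. -/
theorem spl_not_mem_powers {s ℓ : ℕ} (hℓ : ℓ.Prime) (hs : s.Prime) {p q c : ZMod ℓ} (hp0 : p ≠ 0)
    (hq : c ^ s = q) (hp : ∀ x : ZMod ℓ, x ^ s ≠ p) {f : ℕ} (hf1 : 1 ≤ f) (hf : f < s) (k : ℕ) :
    p ^ f ≠ q ^ k := by
  have : Fact ℓ.Prime := ⟨hℓ⟩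
  intro h
  have hcop : Nat.Coprime f s :=
    (Nat.coprime_comm.1 ((Nat.Prime.coprime_iff_not_dvd hs).2
      (fun hd => absurd (Nat.le_of_dvd hf1 hd) (not_le.2 hf))))
  obtain ⟨u, -, hu⟩ := Nat.exists_mul_mod_eq_one_of_coprime hcop hs.one_lt
  have hdiv : f * u = 1 + s * (f * u / s) := by
    have := Nat.mod_add_div (f * u) s
    omega
  set v := f * u / s
  apply hp (c ^ (k * u) / p ^ v)
  rw [div_pow, ← pow_mul, ← pow_mul, mul_comm (k * u) s, pow_mul c s, hq, pow_mul q k u, ← h,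
    ← pow_mul, hdiv, mul_comm v s, pow_add, pow_one, mul_div_cancel_right₀ _ (pow_ne_zero _ hp0)]

theorem spl_famH_monic {n : ℕ} (M : ℕ) (s q : Fin n → ℕ) (hM0 : 0 < M) (hs : ∀ j, 0 < s j) :
    ∀ h ∈ famH M s q, h.Monic := by
  classical
  intro h hh
  unfold famH at hh
  rw [Finset.mem_insert, Finset.mem_image] at hh
  rcases hh with rfl | ⟨i, -, rfl⟩
  · exact monic_X_pow_sub_C (1 : ℤ) hM0.ne'
  · exact monic_X_pow_sub_C _ (hs i).ne'

theorem spl_mem_famH_one {n : ℕ} (M : ℕ) (s q : Fin n → ℕ) : (X ^ M - 1 : ℤ[X]) ∈ famH M s q := by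
  classical
  unfold famH
  exact Finset.mem_insert_self _ _

theorem spl_mem_famH {n : ℕ} (M : ℕ) (s q : Fin n → ℕ) (j : Fin n) :
    (X ^ (s j) - C (q j : ℤ) : ℤ[X]) ∈ famH M s q := by
  classical
  unfold famH
  exact Finset.mem_insert_of_mem (Finset.mem_image_of_mem _ (Finset.mem_univ j))

theorem spl_sep_mod {ℓ e : ℕ} (hℓ : ℓ.Prime) (a : ℕ) (he : ¬ ℓ ∣ e) (ha : ¬ ℓ ∣ a) :
    ((X ^ e - C (a : ℤ) : ℤ[X]).map (Int.castRingHom (ZMod ℓ))).Separable := by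
  have : Fact ℓ.Prime := ⟨hℓ⟩
  rw [spl_map_X_pow_sub_C]
  refine separable_X_pow_sub_C _ ?_ ?_
  · rwa [Ne, ZMod.natCast_eq_zero_iff]
  · rw [Int.cast_natCast]
    rwa [Ne, ZMod.natCast_eq_zero_iff]

theorem spl_famH_sep {n : ℕ} (M : ℕ) (s q : Fin n → ℕ) {ℓ : ℕ} (hℓ : ℓ.Prime) (hM : ¬ ℓ ∣ M)
    (hs : ∀ j, ¬ ℓ ∣ s j) (hq : ∀ j, ¬ ℓ ∣ q j) :
    ∀ h ∈ famH M s q, (h.map (Int.castRingHom (ZMod ℓ))).Separable := by
  classical
  intro h hh
  unfold famH at hh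
  rw [Finset.mem_insert, Finset.mem_image] at hh
  rcases hh with rfl | ⟨i, -, rfl⟩
  · have := spl_sep_mod hℓ 1 hM (fun h1 => hℓ.one_lt.ne' (Nat.dvd_one.1 h1))
    simpa using this
  · exact spl_sep_mod hℓ _ (hs i) (hq i)

theorem spl_infinite_primes_gt (B : ℕ) : {x : ℕ | x.Prime ∧ B < x}.Infinite := by
  have h : {x : ℕ | x.Prime ∧ B < x} = {x : ℕ | x.Prime} \ Set.Iic B := by
    ext x
    simp
  rw [h]
  exact Nat.infinite_setOfPred_prime.sdiff (Set.finite_Iic B)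

/-- **Lemma 5.4.**  Choose distinct odd primes `s j > d + ∑ card (P j) + 2`, `M = m ∏ s j`, `F₀ = SF (famH M s q)`,
`E (j,p) = SF (insert (X^(s j) - p) (famH M s q))`.  By `spl_degree_ge` the union bound of `spl_exists_split_not_split` applies.
Take `ℓ` in that infinite set outside `avoid`, `2`, and the divisors of `M ∏ q ∏ p`.  `spl_splits_of_splitQ`, `spl_splitQ_of_splits`,
and the three lemmas above finish. -/
theorem spl_power_separation (m d : ℕ) (hm : 1 ≤ m) {n : ℕ} (q : Fin n → ℕ)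
    (hq : ∀ j, (q j).Prime) (P : Fin n → Finset ℕ) (hP : ∀ j, ∀ p ∈ P j, p.Prime)
    (hqP : ∀ j, q j ∉ P j) (avoid : Finset ℕ) :
    ∃ ℓ : ℕ, ℓ.Prime ∧ ℓ ≠ 2 ∧ ℓ ∉ avoid ∧ ℓ % m = 1 % m ∧
      ∀ j, ∀ p ∈ P j, ∀ f : ℕ, 1 ≤ f → f ≤ d → ∀ k : ℕ, ((p : ZMod ℓ)) ^ f ≠ ((q j : ZMod ℓ)) ^ k := by
  classical
  set t : Finset (Σ _ : Fin n, ℕ) := Finset.univ.sigma P with ht
  set B : ℕ := d + t.card + 2 with hB
  have hinf := spl_infinite_primes_gt B
  obtain ⟨s, hs, hsB, hinj⟩ : ∃ s : Fin n → ℕ, (∀ j, (s j).Prime) ∧ (∀ j, B < s j) ∧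
      Function.Injective s := by
    refine ⟨fun j => (hinf.natEmbedding _ j : ℕ), fun j => (hinf.natEmbedding _ j).2.1,
      fun j => (hinf.natEmbedding _ j).2.2, ?_⟩
    intro i j hij
    exact Fin.ext ((hinf.natEmbedding _).injective (Subtype.ext hij))
  have hs2 : ∀ j, s j ≠ 2 := fun j => by
    have := hsB j
    omega
  set M : ℕ := m * ∏ j, s j with hMdef
  have hM0 : 0 < M := Nat.mul_pos hm (Finset.prod_pos fun j _ => (hs j).pos)
  have hM : ∀ j, s j ∣ M := fun j =>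
    Dvd.dvd.mul_left (Finset.dvd_prod_of_mem s (Finset.mem_univ j)) m
  have hD : 0 < Module.finrank ℚ (SF (famH M s q)) := Module.finrank_pos
  have hmem : ∀ x ∈ t, x.2 ∈ P x.1 := fun x hx => (Finset.mem_sigma.1 hx).2
  have hsum : ∑ x ∈ t, 1 / (Module.finrank ℚ
        (SF (insert (X ^ (s x.1) - C (x.2 : ℤ)) (famH M s q))) : ℝ) <
      1 / (Module.finrank ℚ (SF (famH M s q)) : ℝ) := by
    have hD' : (0 : ℝ) < Module.finrank ℚ (SF (famH M s q)) := by exact_mod_cast hD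
    have hB' : (0 : ℝ) < B := by
      have : 0 < B := by omega
      exact_mod_cast this
    have h1 : ∀ x ∈ t, 1 / (Module.finrank ℚ
        (SF (insert (X ^ (s x.1) - C (x.2 : ℤ)) (famH M s q))) : ℝ) ≤
        1 / ((B : ℝ) * Module.finrank ℚ (SF (famH M s q))) := by
      intro x hx
      have hx2 := hmem x hx
      have hne : x.2 ≠ q x.1 := fun h => hqP x.1 (h ▸ hx2)
      have h2 := spl_degree_ge M s q hs hs2 hinj hM hM0 hq x.1 (hP x.1 x.2 hx2) hne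
      have h3 : B * Module.finrank ℚ (SF (famH M s q)) ≤
          Module.finrank ℚ (SF (insert (X ^ (s x.1) - C (x.2 : ℤ)) (famH M s q))) :=
        le_trans (Nat.mul_le_mul_right _ (hsB x.1).le) h2
      have h4 : (B : ℝ) * Module.finrank ℚ (SF (famH M s q)) ≤
          (Module.finrank ℚ (SF (insert (X ^ (s x.1) - C (x.2 : ℤ)) (famH M s q))) : ℝ) := by
        exact_mod_cast h3
      exact one_div_le_one_div_of_le (mul_pos hB' hD') h4
    refine lt_of_le_of_lt (Finset.sum_le_sum h1) ?_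
    rw [Finset.sum_const, nsmul_eq_mul, mul_one_div, div_lt_div_iff₀ (mul_pos hB' hD') hD', one_mul]
    have h5 : (t.card : ℝ) < B := by
      have : t.card < B := by omega
      exact_mod_cast this
    exact mul_lt_mul_of_pos_right h5 hD'
  have key := spl_exists_split_not_split (SF (famH M s q)) t
    (fun x => SF (insert (X ^ (s x.1) - C (x.2 : ℤ)) (famH M s q))) hsum
  obtain ⟨ℓ, ⟨hℓ0, hℓE⟩, hℓb⟩ :=
    key.exists_gt (2 + M + avoid.sup id + ∑ j, q j + ∑ x ∈ t, x.2)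
  have hℓ : ℓ.Prime := hℓ0.1
  have : Fact ℓ.Prime := ⟨hℓ⟩
  have hlt_dvd : ∀ a : ℕ, 0 < a → a < ℓ → ¬ ℓ ∣ a := fun a ha hal hd =>
    absurd (Nat.le_of_dvd ha hd) (not_le.2 hal)
  have hℓM : ¬ ℓ ∣ M := hlt_dvd M hM0 (by omega)
  have hℓs : ∀ j, ¬ ℓ ∣ s j := fun j hd => hℓM (hd.trans (hM j))
  have hℓq : ∀ j, ¬ ℓ ∣ q j := fun j => hlt_dvd _ (hq j).pos (by
    have := Finset.single_le_sum (f := q) (fun i _ => Nat.zero_le _) (Finset.mem_univ j)
    omega)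
  have hℓp : ∀ x ∈ t, ¬ ℓ ∣ x.2 := fun x hx => hlt_dvd _ (hP x.1 x.2 (hmem x hx)).pos (by
    have := Finset.single_le_sum (f := fun x : (Σ _ : Fin n, ℕ) => x.2)
      (fun i _ => Nat.zero_le _) hx
    omega)
  have hmonic := spl_famH_monic M s q hM0 (fun j => (hs j).pos)
  have hsplit : ∀ h ∈ famH M s q, (h.map (Int.castRingHom (ZMod ℓ))).Splits := fun h hh =>
    spl_splits_of_splitQ (famH M s q) hh (hmonic h hh) hℓ0
  have hsep := spl_famH_sep M s q hℓ hℓM hℓs hℓq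
  have hMℓ : M ∣ ℓ - 1 := spl_dvd_sub_one_of_splits hℓ hℓM hM0 (hsplit _ (spl_mem_famH_one M s q))
  refine ⟨ℓ, hℓ, by omega, ?_, ?_, ?_⟩
  · intro hav
    have := Finset.le_sup (f := id) hav
    simp only [id] at this
    omega
  · have hmℓ : m ∣ ℓ - 1 := (Dvd.intro _ rfl).trans hMℓ
    have h1 : 1 ≤ ℓ := hℓ.one_lt.le
    exact ((Nat.modEq_iff_dvd' h1).2 hmℓ).symm
  · intro j p hp f hf1 hfd k
    have hx : (⟨j, p⟩ : Σ _ : Fin n, ℕ) ∈ t := Finset.mem_sigma.2 ⟨Finset.mem_univ j, hp⟩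
    have hp0 : (p : ZMod ℓ) ≠ 0 := by
      rw [Ne, ZMod.natCast_eq_zero_iff]
      exact hℓp _ hx
    -- `q j` is an `s j`-th power
    obtain ⟨c, hc⟩ : ∃ c : ZMod ℓ, c ^ s j = (q j : ZMod ℓ) := by
      have h1 := hsplit _ (spl_mem_famH M s q j)
      rw [spl_map_X_pow_sub_C] at h1
      obtain ⟨c, hc⟩ := h1.exists_eval_eq_zero (by
        rw [degree_X_pow_sub_C (hs j).pos]
        exact_mod_cast (hs j).ne_zero)
      refine ⟨c, ?_⟩
      simpa [sub_eq_zero] using hc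
    -- `p` is not an `s j`-th power
    have hnot : ∀ x : ZMod ℓ, x ^ s j ≠ (p : ZMod ℓ) := by
      intro x hxp
      apply hℓE _ hx
      have hx0 : x ≠ 0 := by
        rintro rfl
        rw [zero_pow (hs j).ne_zero] at hxp
        exact hp0 hxp.symm
      have hone : ((X ^ s j - 1 : ℤ[X]).map (Int.castRingHom (ZMod ℓ))).Splits := by
        refine (hsplit _ (spl_mem_famH_one M s q)).of_dvd ?_ ?_
        · rw [spl_map_X_pow_sub_one]
          exact X_pow_sub_C_ne_zero hM0 _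
        · apply Polynomial.map_dvd
          obtain ⟨e, he⟩ := hM j
          rw [he, pow_mul]
          simpa using sub_dvd_pow_sub_pow (X ^ s j : ℤ[X]) 1 e
      have hsp := spl_splits_of_pow hℓ (hs j).pos (p : ℤ) x (by rw [hxp, Int.cast_natCast]) hx0 hone
      refine spl_splitQ_of_splits _ ?_ hℓ ?_
      · intro h hh
        rcases Finset.mem_insert.1 hh with rfl | hh
        · exact monic_X_pow_sub_C _ (hs j).ne_zero
        · exact hmonic h hh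
      · intro h hh
        rcases Finset.mem_insert.1 hh with rfl | hh
        · exact ⟨spl_sep_mod hℓ p (hℓs j) (hℓp _ hx), hsp⟩
        · exact ⟨hsep h hh, hsplit h hh⟩
    exact spl_not_mem_powers hℓ (hs j) hp0 hc hnot hf1 (by
      have := hsB j
      omega) k

end Claimed.Agent.R239.SPL
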